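import Vale.Agent.P238.CubeDefs

/-!
# P238: the permutations used at one scale

Positions are `Fin A × Fin G`: `A` intervals of length `G`; windows have length `2 * h`.
-/

namespace Vale.Agent.P238

/-- Which half of its window a position lies in, for the offset `phi`. -/
def side {G : ℕ} (h phi : ℕ) (p : Fin G) : Bool :=
  decide ((p.val + 2 * h - phi) % (2 * h) < h)

/-- Translation by `h` (for `true`) or by `-h` (for `false`), modulo `G`. -/
def shiftBy {G : ℕ} [NeZero G] (h : ℕ) (b : Bool) (p : Fin G) : Fin G :=
  if b then p + Fin.ofNat G h else p - Fin.ofNat G h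

/-- Swap the two halves of every window, with an offset of its own in each interval. -/
def piFun {A G : ℕ} [NeZero G] (h : ℕ) (phi : Fin A → Fin (2 * h)) (p : Fin A × Fin G) :
    Fin A × Fin G :=
  (p.1, shiftBy h (side h (phi p.1).val p.2) p.2)

/-- Rotate every interval by `h` or `-h`. -/
def sigFun {A G : ℕ} [NeZero G] (h : ℕ) (eps : Fin A → Bool) (p : Fin A × Fin G) :
    Fin A × Fin G :=
  (p.1, shiftBy h (eps p.1) p.2)

/-- The function on positions acting on bit indices. -/
def liftFun {P β : Type*} (f : P → P) (q : P × β) : P × β := (f q.1, q.2)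

/-- Blocks touched by a set of bit indices. -/
def touched {P β : Type*} [DecidableEq P] (S : Finset (P × β)) : Finset P := S.image Prod.fst

/-- All touched blocks of one interval are cyclically within `lo` of each other. -/
def Near {A G : ℕ} (lo : ℕ) (T : Finset (Fin A × Fin G)) : Prop :=
  ∀ p ∈ T, ∀ q ∈ T, p.1 = q.1 →
    ((p.2.val + G - q.2.val) % G ≤ lo ∨ (q.2.val + G - p.2.val) % G ≤ lo)

open Classical in
/-- Bound on the probability that a set fails to be moved rigidly at this scale. -/
noncomputable def badBound {A G : ℕ} (h lo : ℕ) (T : Finset (Fin A × Fin G)) : ℝ :=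
  if Near lo T then min 1 ((T.card : ℝ) * lo / h) else 1

end Vale.Agent.P238
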