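import Vale.Agent.P238.Cube
import Vale.Agent.P238.OuterDefs

/-!
# P238: conditioning on the outside of one block
-/

namespace Vale.Agent.P238

open Finset

variable {P β : Type*} [Fintype P] [DecidableEq P] [Fintype β] [DecidableEq β]

/-- Replace the block `b` of `x` by `u`. -/
def setBlock (b : P) (x : P × β → Bool) (u : β → Bool) : P × β → Bool :=
  fun q => if q.1 = b then u q.2 else x q

/-- A map on block words acting on the block `b`. -/
def blockMap (b : P) (T : (β → Bool) → β → Bool) (x : P × β → Bool) : P × β → Bool :=
  setBlock b x (T fun k => x (b, k))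

theorem avg_setBlock (b : P) (F : (P × β → Bool) → ℝ) :
    avg (fun x => avg fun u => F (setBlock b x u)) = avg F := by
  let Phi : (P × β → Bool) × (β → Bool) → (P × β → Bool) × (β → Bool) :=
    fun z => (setBlock b z.1 z.2, fun k => z.1 (b, k))
  have hinv : Function.Involutive Phi := by
    intro z
    obtain ⟨x, u⟩ := z
    refine Prod.ext (funext fun q => ?_) (funext fun k => ?_)
    · by_cases hq : q.1 = b
      · obtain ⟨q1, q2⟩ := q
        simp only at hq
        subst hq
        simp [Phi, setBlock]
      · simp [Phi, setBlock, hq]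
    · simp [Phi, setBlock]
  have h : ∑ x, ∑ u, F (setBlock b x u) = ∑ x, ∑ _u : β → Bool, F x := by
    rw [← Fintype.sum_prod_type', ← Fintype.sum_prod_type']
    exact Fintype.sum_bijective Phi hinv.bijective _ _ fun z => rfl
  simp only [avg, ← sum_div]
  rw [h]
  simp only [sum_const, card_univ, Fintype.card_fun, Fintype.card_bool, nsmul_eq_mul, Nat.cast_pow,
    Nat.cast_ofNat, ← mul_sum]
  field_simp

theorem wvar_eq {ι : Type*} [Fintype ι] [DecidableEq ι] (h : (ι → Bool) → ℝ) :
    wvar h = avg (fun u => h u ^ 2) - avg h ^ 2 := by
  rw [← parseval]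
  have h0 : avg h = coeff h ∅ := by simp [coeff, chi]
  rw [h0, wvar, eq_sub_iff_add_eq]
  rw [← sum_filter_add_sum_filter_not univ (fun S : Finset ι => S.Nonempty) (fun S => coeff h S ^ 2)]
  congr 1
  have : (univ.filter fun S : Finset ι => ¬S.Nonempty) = {∅} := by
    ext S; simp [Finset.not_nonempty_iff_eq_empty]
  rw [this, sum_singleton]

theorem avg_sub {ι : Type*} [Fintype ι] [DecidableEq ι] (f g : (ι → Bool) → ℝ) :
    avg (fun x => f x - g x) = avg f - avg g := by
  simp [avg, sum_sub_distrib, sub_div]

theorem coeff_mean (b : P) (f : (P × β → Bool) → ℝ) (S : Finset (P × β)) :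
    coeff (fun x => avg fun u => f (setBlock b x u)) S =
      if b ∈ touched S then 0 else coeff f S := by
  split_ifs with hb
  · obtain ⟨i, hi, hib⟩ := mem_image.mp hb
    let g := fun x : P × β → Bool => (avg fun u => f (setBlock b x u)) * chi S x
    have hanti : ∀ x, g (flipBit i x) = - g x := by
      intro x
      have h1 : ∀ u, setBlock b (flipBit i x) u = setBlock b x u := by
        intro u; funext q
        by_cases hq : q.1 = b
        · simp [setBlock, hq]
        · simp only [setBlock, hq, if_false, flipBit]
          rw [Function.update_of_ne]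
          rintro rfl
          exact hq hib
      have h2 : chi S (flipBit i x) = - chi S x := by
        unfold chi flipBit
        rw [← mul_prod_erase S _ hi, ← mul_prod_erase S _ hi]
        have h3 : ∏ k ∈ S.erase i, (if Function.update x i (!x i) k then (-1:ℝ) else 1)
            = ∏ k ∈ S.erase i, (if x k then (-1:ℝ) else 1) :=
          prod_congr rfl fun k hk => by rw [Function.update_of_ne (ne_of_mem_erase hk)]
        rw [h3, Function.update_self]
        cases x i <;> simp
      simp only [g, h1, h2, mul_neg]
    have hb' : Function.Involutive (flipBit i : (P × β → Bool) → P × β → Bool) := by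
      intro x; simp [flipBit]
    have hs : ∑ x, g x = ∑ x, - g x :=
      Fintype.sum_bijective _ hb'.bijective _ _ (fun x => by rw [hanti, neg_neg])
    rw [sum_neg_distrib] at hs
    have h0 : ∑ x, g x = 0 := by linarith
    show avg g = 0
    simp [avg, h0]
  · have hu : ∀ x u, chi S (setBlock b x u) = chi S x := by
      intro x u
      refine prod_congr rfl fun q hq => ?_
      have : q.1 ≠ b := fun h => hb (mem_image.mpr ⟨q, hq, h⟩)
      simp [setBlock, this]
    unfold coeff
    rw [← avg_setBlock b (fun x => f x * chi S x)]
    simp only [hu]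
    congr 1
    funext x
    simp [avg, div_mul_eq_mul_div, sum_mul]

/-- Weight of the coefficients touching a block. -/
theorem sum_touched_eq (b : P) (f : (P × β → Bool) → ℝ) :
    ∑ S ∈ univ.filter (fun S : Finset (P × β) => b ∈ touched S), coeff f S ^ 2 =
      avg fun x => wvar fun u => f (setBlock b x u) := by
  simp only [wvar_eq]
  rw [avg_sub, avg_setBlock b (fun x => f x ^ 2), ← parseval, ← parseval]
  simp only [coeff_mean]
  rw [sum_filter, eq_sub_iff_add_eq, ← sum_add_distrib]
  refine sum_congr rfl fun S _ => ?_
  split_ifs <;> simp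

theorem avg_dis_block (b : P) (T : (β → Bool) → β → Bool) (f : (P × β → Bool) → Bool) :
    (avg fun x => dis (fun u => f (setBlock b x u)) T) = dis f (blockMap b T) := by
  have h : ∀ x u, |bv (f (setBlock b x u)) - bv (f (setBlock b x (T u)))| =
      (fun z => |bv (f z) - bv (f (blockMap b T z))|) (setBlock b x u) := by
    intro x u
    have e1 : (fun k => setBlock b x u (b, k)) = u := by funext k; simp [setBlock]
    have e2 : setBlock b (setBlock b x u) (T u) = setBlock b x (T u) := by
      funext q; by_cases hq : q.1 = b <;> simp [setBlock, hq]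
    simp only [blockMap, e1, e2]
  have h2 := avg_setBlock b (fun z => |bv (f z) - bv (f (blockMap b T z))|)
  unfold dis
  rw [← h2]
  congr 1
  funext x
  congr 1
  funext u
  exact h x u

theorem blockMap_flip (b : P) (k : β) (x : P × β → Bool) :
    blockMap b (flipBit k) x = flipBit (b, k) x := by
  funext q
  obtain ⟨q1, q2⟩ := q
  simp only [blockMap, setBlock, flipBit, Function.update_apply, Prod.mk.injEq]
  by_cases h1 : q1 = b
  · subst h1; simp
  · simp [h1]

end Vale.Agent.P238
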