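import Vale.Agent.P238.CubeDefs
import Vale.Agent.P063.Master

/-!
# P238 module B: a shift-invariant form of the KKL inequality (via the (2,4) inequality of Bonami)

If the function is almost invariant under the first `K` rotations, no single bit is influential,
and then the low levels carry little weight.
-/

namespace Vale.Agent.P238

open Finset

section Bridge

variable {ι : Type*} [Fintype ι] [DecidableEq ι]

theorem avg_eq_Ex (f : (ι → Bool) → ℝ) : avg f = P063.Ex (1 / 2) f := by
  have hw : ∀ x : ι → Bool, P063.wt (1 / 2) x = ((2 : ℝ) ^ Fintype.card ι)⁻¹ := by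
    intro x
    norm_num [P063.wt, Finset.prod_const, inv_pow]
  simp only [P063.Ex, hw]
  rw [avg, div_eq_inv_mul, Finset.mul_sum]

theorem sd_half : P063.sd (1 / 2 : ℝ) = 1 / 2 := by
  rw [P063.sd, show (1 / 2 : ℝ) * (1 - 1 / 2) = (1 / 2) ^ 2 by norm_num]
  exact Real.sqrt_sq (by norm_num)

omit [Fintype ι] [DecidableEq ι] in
theorem chi_half (S : Finset ι) (x : ι → Bool) :
    P063.chi (1 / 2) S x = (-1) ^ S.card * chi S x := by
  rw [P063.chi, chi, ← Finset.prod_const, ← Finset.prod_mul_distrib]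
  refine Finset.prod_congr rfl fun i _ => ?_
  cases x i <;> norm_num [P063.phi, sd_half]

theorem coeff_sq (f : (ι → Bool) → ℝ) (S : Finset ι) :
    coeff f S ^ 2 = P063.coef (1 / 2) f S ^ 2 := by
  have h : P063.coef (1 / 2) f S = (-1) ^ S.card * coeff f S := by
    rw [coeff, avg_eq_Ex, ← P063.Ex_const_mul, P063.coef]
    exact P063.Ex_congr fun x => by rw [chi_half]; ring
  rw [h, mul_pow, ← pow_mul, mul_comm S.card 2, pow_mul, neg_one_sq, one_pow, one_mul]

theorem piv_eq_dis (h : (ι → Bool) → Bool) (i : ι) :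
    P063.piv (1 / 2) i (fun x => bv (h x)) = dis h (flipBit i) := by
  rw [dis, avg_eq_Ex, P063.piv]
  refine P063.Ex_congr fun x => ?_
  simp only [P063.diff, flipBit]
  cases hx : x i
  · rw [show Function.update x i false = x by rw [← hx]; exact Function.update_eq_self _ _,
      abs_sub_comm]
    rfl
  · rw [show Function.update x i true = x by rw [← hx]; exact Function.update_eq_self _ _]
    rfl

theorem avg_equiv (e : (ι → Bool) ≃ (ι → Bool)) (f : (ι → Bool) → ℝ) :
    avg (fun x => f (e x)) = avg f := by rw [avg, avg, e.sum_comp]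

theorem avg_mono {f g : (ι → Bool) → ℝ} (h : ∀ x, f x ≤ g x) : avg f ≤ avg g :=
  div_le_div_of_nonneg_right (Finset.sum_le_sum fun x _ => h x) (by positivity)

theorem avg_add (f g : (ι → Bool) → ℝ) : avg (fun x => f x + g x) = avg f + avg g := by
  simp only [avg, Finset.sum_add_distrib, add_div]

omit [Fintype ι] in
theorem flipBit_flipBit (i : ι) (x : ι → Bool) : flipBit i (flipBit i x) = x := by
  funext k
  rcases eq_or_ne k i with rfl | hk <;> simp [flipBit, *]

end Bridge

variable {m : ℕ} [NeZero m]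

/-- Influences of bits a short rotation apart are close. -/
theorem infl_le_rot (h : (Fin m → Bool) → Bool) (i : Fin m) (t : ℕ) :
    dis h (flipBit i) ≤ dis h (flipBit (i - Fin.ofNat m t)) + 2 * dis h (rotBits t) := by
  let R : (Fin m → Bool) ≃ (Fin m → Bool) :=
    Equiv.arrowCongr (Equiv.addRight (Fin.ofNat m t)) (Equiv.refl Bool)
  let R' : (Fin m → Bool) ≃ (Fin m → Bool) := R.symm
  have hR : ∀ x, R' x = rotBits t x := fun x => by
    funext k; simp [R', R, Equiv.arrowCongr, rotBits]
  let Fl : (Fin m → Bool) ≃ (Fin m → Bool) :=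
    ⟨flipBit i, flipBit i, flipBit_flipBit i, flipBit_flipBit i⟩
  have hcomm : ∀ x, rotBits t (flipBit i x) = flipBit (i - Fin.ofNat m t) (rotBits t x) := by
    intro x
    funext k
    simp only [rotBits, flipBit, Function.update_apply, sub_add_cancel]
    by_cases hk : k = i - Fin.ofNat m t
    · rw [if_pos hk, if_pos (by rw [hk, sub_add_cancel])]
    · rw [if_neg hk, if_neg fun e => hk (eq_sub_of_add_eq e)]
  have h1 : avg (fun x => |bv (h (rotBits t x)) - bv (h (flipBit (i - Fin.ofNat m t) (rotBits t x)))|)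
      = dis h (flipBit (i - Fin.ofNat m t)) := by
    have := avg_equiv R' fun y => |bv (h y) - bv (h (flipBit (i - Fin.ofNat m t) y))|
    rw [dis, ← this]
    simp only [hR]
  have h2 : avg (fun x => |bv (h (flipBit i x)) - bv (h (rotBits t (flipBit i x)))|)
      = dis h (rotBits t) :=
    avg_equiv Fl fun y => |bv (h y) - bv (h (rotBits t y))|
  calc dis h (flipBit i)
      ≤ avg (fun x => |bv (h x) - bv (h (rotBits t x))| +
          (|bv (h (rotBits t x)) - bv (h (flipBit (i - Fin.ofNat m t) (rotBits t x)))| +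
            |bv (h (flipBit i x)) - bv (h (rotBits t (flipBit i x)))|)) := by
        refine avg_mono fun x => ?_
        rw [hcomm x, abs_sub_comm (bv (h (flipBit i x)))]
        exact (abs_sub_le _ _ _).trans (add_le_add le_rfl (abs_sub_le _ _ _))
    _ = _ := by rw [avg_add, avg_add, h1, h2, dis, dis]; ring

theorem inner_kkl {m : ℕ} [NeZero m] {K d : ℕ} (hK : K ≤ m) (hd : 1 ≤ d)
    (hKd : (3 ^ d * d) ^ 4 ≤ K) (h : (Fin m → Bool) → Bool) :
    wvar (fun x => bv (h x)) ≤
      2 / d * ∑ i, dis h (flipBit i) +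
      2 / Real.sqrt K * ∑ t ∈ range K, dis h (rotBits t) := by
  set f : (Fin m → Bool) → ℝ := fun x => bv (h x) with hf'
  have hf : P063.IsBit f := fun x => by
    show bv (h x) = 0 ∨ bv (h x) = 1
    cases h x <;> simp [bv]
  have h0 : (0 : ℝ) < 1 / 2 := by norm_num
  have h1 : (1 / 2 : ℝ) < 1 := by norm_num
  set I := ∑ i, dis h (flipBit i) with hI
  set Q := ∑ t ∈ range K, dis h (rotBits t) with hQ
  have hdis0 : ∀ T, 0 ≤ dis h T := fun T =>
    div_nonneg (sum_nonneg fun x _ => abs_nonneg _) (by positivity)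
  have hI0 : 0 ≤ I := sum_nonneg fun i _ => hdis0 _
  have hQ0 : 0 ≤ Q := sum_nonneg fun t _ => hdis0 _
  set c : Finset (Fin m) → ℝ := fun S => P063.coef (1 / 2) f S ^ 2 with hc
  have hc0 : ∀ S, 0 ≤ c S := fun S => sq_nonneg _
  have hwv : wvar f = ∑ S ∈ univ.filter (fun S : Finset (Fin m) => S.Nonempty), c S := by
    simp only [wvar, hc, coeff_sq]
  have hd' : (1 : ℝ) ≤ d := by exact_mod_cast hd
  have h4 : ((3 : ℝ) ^ d * d) ^ 4 ≤ K := by exact_mod_cast hKd
  set u : ℝ := Real.sqrt (Real.sqrt K) with hu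
  have hu2 : u ^ 2 = Real.sqrt K := Real.sq_sqrt (Real.sqrt_nonneg _)
  have hu4 : (3 : ℝ) ^ d * d ≤ u := by
    refine le_of_pow_le_pow_left₀ (n := 4) (by norm_num) (Real.sqrt_nonneg _) (h4.trans_eq ?_)
    rw [show u ^ 4 = (u ^ 2) ^ 2 by ring, hu2, Real.sq_sqrt (Nat.cast_nonneg K)]
  have h3d : (1 : ℝ) ≤ 3 ^ d := one_le_pow₀ (by norm_num)
  have hdu : (d : ℝ) ≤ u := (le_mul_of_one_le_left (by linarith) h3d).trans hu4
  have hu1 : 1 ≤ u := hd'.trans hdu
  have hdK : (d : ℝ) ≤ Real.sqrt K := by rw [← hu2]; nlinarith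
  have hsK : 0 < Real.sqrt K := lt_of_lt_of_le (by linarith) hdK
  by_cases hbig : ∃ i, 1 / Real.sqrt K < dis h (flipBit i)
  · -- an influential bit forces a large `I + 2 Q`
    obtain ⟨i, hi⟩ := hbig
    have hsum : (K : ℝ) * dis h (flipBit i) ≤ I + 2 * Q := by
      calc (K : ℝ) * dis h (flipBit i) = ∑ _t ∈ range K, dis h (flipBit i) := by simp
        _ ≤ ∑ t ∈ range K, (dis h (flipBit (i - Fin.ofNat m t)) + 2 * dis h (rotBits t)) :=
            sum_le_sum fun t _ => infl_le_rot h i t
        _ = (∑ t ∈ range K, dis h (flipBit (i - Fin.ofNat m t))) + 2 * Q := by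
            rw [sum_add_distrib, hQ, mul_sum]
        _ ≤ I + 2 * Q := by
            refine add_le_add ?_ le_rfl
            rw [← sum_image (f := fun j => dis h (flipBit j)) (g := fun t => i - Fin.ofNat m t)]
            · exact sum_le_sum_of_subset_of_nonneg (subset_univ _) fun j _ _ => hdis0 _
            · intro a ha b hb e
              have e' := congrArg Fin.val (sub_right_injective e)
              simp only [Fin.ofNat] at e'
              simp only [coe_range, Set.mem_Iio] at ha hb
              rwa [Nat.mod_eq_of_lt (by omega), Nat.mod_eq_of_lt (by omega)] at e'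
    have hone : wvar f ≤ 1 := by
      rw [hwv]; exact hf.parseval_le h0 h1 _
    have hbig' : Real.sqrt K < I + 2 * Q := by
      rw [div_lt_iff₀ hsK] at hi
      have := mul_lt_mul_of_pos_left hi hsK
      rw [mul_one, ← mul_assoc, mul_comm (Real.sqrt K), mul_assoc,
        Real.mul_self_sqrt (Nat.cast_nonneg K)] at this
      linarith
    have h5 : 1 ≤ I / Real.sqrt K + 2 / Real.sqrt K * Q := by
      rw [div_mul_eq_mul_div, ← add_div, le_div_iff₀ hsK]; linarith
    have h6 : I / Real.sqrt K ≤ 2 / d * I := by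
      rw [div_mul_eq_mul_div, div_le_div_iff₀ hsK (by linarith)]
      nlinarith [mul_le_mul_of_nonneg_left hdK hI0]
    linarith
  · have hsmall : ∀ i, P063.piv (1 / 2) i f ≤ 1 / Real.sqrt K := fun i => by
      rw [piv_eq_dis]; exact not_lt.1 fun e => hbig ⟨i, e⟩
    set e : ℕ := d / 2 with he
    have hlow : ∀ i, P063.lowW (1 / 2) e i f ≤ 1 / (4 * d) * P063.piv (1 / 2) i f := by
      intro i
      have hp0 := P063.piv_nonneg h0.le h1.le i f
      refine (P063.lowW_le hf h0 h1 e i).trans ?_
      have hbon : P063.bon (1 / 2 : ℝ) = 8 := by rw [P063.bon, sd_half]; norm_num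
      have hsq : Real.sqrt (P063.piv (1 / 2) i f) ≤ 1 / u := by
        refine (Real.sqrt_le_sqrt (hsmall i)).trans_eq ?_
        rw [Real.sqrt_div zero_le_one, Real.sqrt_one, hu]
      have h8 : (8 : ℝ) ^ e ≤ 3 ^ d := by
        calc (8 : ℝ) ^ e ≤ (3 ^ 2) ^ e := pow_le_pow_left₀ (by norm_num) (by norm_num) e
          _ = 3 ^ (2 * e) := by rw [pow_mul]
          _ ≤ 3 ^ d := pow_le_pow_right₀ (by norm_num) (by omega)
      have h9 : (8 : ℝ) ^ e * (1 / u) ≤ 1 / d := by
        rw [mul_one_div, div_le_div_iff₀ (by linarith) (by linarith), one_mul]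
        exact (mul_le_mul_of_nonneg_right h8 (by linarith)).trans hu4
      rw [hbon, sd_half]
      calc (1 / 2 : ℝ) ^ 2 * 8 ^ e * (P063.piv (1 / 2) i f * Real.sqrt (P063.piv (1 / 2) i f))
          ≤ (1 / 2 : ℝ) ^ 2 * 8 ^ e * (P063.piv (1 / 2) i f * (1 / u)) := by gcongr
        _ = 1 / 4 * P063.piv (1 / 2) i f * (8 ^ e * (1 / u)) := by ring
        _ ≤ 1 / 4 * P063.piv (1 / 2) i f * (1 / d) :=
            mul_le_mul_of_nonneg_left h9 (by positivity)
        _ = _ := by ring
    have hsplit : ∀ S : Finset (Fin m), S.Nonempty →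
        c S ≤ (∑ i, if i ∈ S ∧ S.card ≤ e then c S else 0) + (S.card : ℝ) * c S / (e + 1) := by
      intro S hS
      obtain ⟨i, hi⟩ := hS
      have hA : 0 ≤ ∑ j, if j ∈ S ∧ S.card ≤ e then c S else 0 :=
        sum_nonneg fun j _ => by split_ifs; exacts [hc0 S, le_rfl]
      by_cases hSe : S.card ≤ e
      · have h1' := single_le_sum (f := fun j => if j ∈ S ∧ S.card ≤ e then c S else 0)
          (fun j _ => by split_ifs; exacts [hc0 S, le_rfl]) (mem_univ i)
        simp only [hi, hSe, and_self, if_true] at h1'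
        have : 0 ≤ (S.card : ℝ) * c S / (e + 1) :=
          div_nonneg (mul_nonneg (Nat.cast_nonneg _) (hc0 S)) (by positivity)
        simp only [hSe, and_true] at h1' ⊢
        linarith
      · have hcard : (e : ℝ) + 1 ≤ S.card := by exact_mod_cast (show e + 1 ≤ S.card by omega)
        have : c S ≤ (S.card : ℝ) * c S / (e + 1) := by
          rw [le_div_iff₀ (by positivity), mul_comm]
          exact mul_le_mul_of_nonneg_right hcard (hc0 S)
        linarith
    have hpiv : ∑ i, P063.piv (1 / 2) i f = I := sum_congr rfl fun i _ => piv_eq_dis h i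
    have htot : ∑ S, (S.card : ℝ) * c S = I / 4 := by
      rw [hc, P063.spec_total hf h0 h1, sd_half, P063.totalInf, hpiv]; ring
    rw [hwv]
    calc ∑ S ∈ univ.filter (fun S : Finset (Fin m) => S.Nonempty), c S
        ≤ ∑ S ∈ univ.filter (fun S : Finset (Fin m) => S.Nonempty),
            ((∑ i, if i ∈ S ∧ S.card ≤ e then c S else 0) + (S.card : ℝ) * c S / (e + 1)) :=
          sum_le_sum fun S hS => hsplit S (mem_filter.1 hS).2
      _ ≤ ∑ S, ((∑ i, if i ∈ S ∧ S.card ≤ e then c S else 0) + (S.card : ℝ) * c S / (e + 1)) :=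
          sum_le_sum_of_subset_of_nonneg (subset_univ _) fun S _ _ => add_nonneg
            (sum_nonneg fun j _ => by split_ifs; exacts [hc0 S, le_rfl])
            (div_nonneg (mul_nonneg (Nat.cast_nonneg _) (hc0 S)) (by positivity))
      _ = (∑ i, P063.lowW (1 / 2) e i f) + I / 4 / (e + 1) := by
          rw [sum_add_distrib, ← sum_div, htot, sum_comm]
          simp only [P063.lowW, sum_filter, hc]
      _ ≤ 1 / (4 * d) * I + I / 4 / (e + 1) := by
          refine add_le_add ((sum_le_sum fun i _ => hlow i).trans_eq ?_) le_rfl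
          rw [← mul_sum, hpiv]
      _ ≤ 2 / d * I + 2 / Real.sqrt K * Q := by
          have he2 : (d : ℝ) ≤ 2 * ((e : ℝ) + 1) := by
            exact_mod_cast (show d ≤ 2 * (e + 1) by omega)
          have hA : I / 4 / ((e : ℝ) + 1) ≤ I / (2 * d) := by
            rw [div_div, div_le_div_iff₀ (by positivity) (by positivity)]
            nlinarith [mul_le_mul_of_nonneg_left he2 hI0]
          have hB : 1 / (4 * (d : ℝ)) * I + I / (2 * d) ≤ 2 / d * I := by
            rw [show 1 / (4 * (d : ℝ)) * I + I / (2 * d) = 3 / 4 * (I / d) by ring,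
              show 2 / (d : ℝ) * I = 2 * (I / d) by ring]
            have : 0 ≤ I / (d : ℝ) := div_nonneg hI0 (by linarith)
            linarith
          have : 0 ≤ 2 / Real.sqrt K * Q := by positivity
          linarith

end Vale.Agent.P238
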