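import Vale.Agent.P238.OuterDefs

/-!
# P238 module A1: one scale
-/

namespace Vale.Agent.P238

open Finset

namespace OneScale

section Side

variable {G h : ℕ}

/-- The place of `p` inside its window, for the offset `phi`. -/
def winPos (h phi : ℕ) (p : Fin G) : ℕ := (p.val + 2 * h - phi) % (2 * h)

lemma side_eq (h phi : ℕ) (p : Fin G) : side h phi p = decide (winPos h phi p < h) := rfl

lemma winPos_lt (hh : 1 ≤ h) (phi : ℕ) (p : Fin G) : winPos h phi p < 2 * h :=
  Nat.mod_lt _ (by omega)

lemma winPos_add {phi d : ℕ} (hphi : phi < 2 * h) {p q : Fin G}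
    (hpq : p.val % (2 * h) = (q.val + d) % (2 * h)) :
    winPos h phi p = (winPos h phi q + d) % (2 * h) := by
  rw [winPos, winPos, Nat.add_sub_assoc hphi.le, Nat.add_sub_assoc hphi.le, Nat.add_mod, hpq,
    ← Nat.add_mod, Nat.mod_add_mod]
  congr 1
  omega

lemma two_h_le [NeZero G] (hG : 2 * h ∣ G) : 2 * h ≤ G :=
  Nat.le_of_dvd (Nat.pos_of_ne_zero (NeZero.ne G)) hG

lemma shiftBy_mod [NeZero G] (hh : 1 ≤ h) (hG : 2 * h ∣ G) (b : Bool) (p : Fin G) :
    (shiftBy h b p).val % (2 * h) = (p.val + h) % (2 * h) := by
  have h2 := two_h_le hG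
  have hval : (Fin.ofNat G h).val = h := by
    simp only [Fin.val_ofNat]; exact Nat.mod_eq_of_lt (by omega)
  cases b with
  | true =>
    simp only [shiftBy, if_true, Fin.val_add, hval]
    exact Nat.mod_mod_of_dvd _ hG
  | false =>
    simp only [shiftBy, Bool.false_eq_true, if_false, Fin.sub_def, hval]
    rw [Nat.mod_mod_of_dvd _ hG]
    have hk : 2 * h ∣ G - 2 * h := Nat.dvd_sub hG (dvd_refl _)
    obtain ⟨k, hk⟩ := hk
    rw [show G - h + p.val = p.val + h + 2 * h * k by omega, Nat.add_mul_mod_self_left]

lemma side_shiftBy [NeZero G] (hh : 1 ≤ h) (hG : 2 * h ∣ G) {phi : ℕ} (hphi : phi < 2 * h)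
    (b : Bool) (p : Fin G) : side h phi (shiftBy h b p) = !side h phi p := by
  rw [side_eq, side_eq, winPos_add hphi (shiftBy_mod hh hG b p)]
  have hx := winPos_lt hh phi p
  by_cases hlt : winPos h phi p < h
  · rw [Nat.mod_eq_of_lt (by omega : winPos h phi p + h < 2 * h)]
    simp [hlt]
  · have he : (winPos h phi p + h) % (2 * h) = winPos h phi p - h := by
      rw [show winPos h phi p + h = (winPos h phi p - h) + 2 * h by omega, Nat.add_mod_right]
      exact Nat.mod_eq_of_lt (by omega)
    have h3 : winPos h phi p - h < h := by omega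
    simp [he, h3, hlt]

lemma shiftBy_not [NeZero G] (h : ℕ) (b : Bool) (p : Fin G) :
    shiftBy h (!b) (shiftBy h b p) = p := by
  cases b <;> simp [shiftBy]

lemma winPos_injective (hh : 1 ≤ h) (p : Fin G) :
    Function.Injective fun phi : Fin (2 * h) => (⟨winPos h phi p, winPos_lt hh _ p⟩ : Fin (2 * h)) := by
  intro a b hab
  have h1 : winPos h a.val p = winPos h b.val p := congrArg Fin.val hab
  rw [winPos, winPos, Nat.add_sub_assoc a.isLt.le, Nat.add_sub_assoc b.isLt.le] at h1
  have h2 := (Nat.ModEq.add_left_cancel' p.val h1).eq_of_abs_lt (by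
    have := a.isLt; have := b.isLt
    rw [abs_lt]; omega)
  exact Fin.ext (by have := a.isLt; have := b.isLt; omega)

lemma card_side (hh : 1 ≤ h) (p : Fin G) (e : Bool) :
    (univ.filter fun phi : Fin (2 * h) => side h phi p = e).card = h := by
  let f := fun phi : Fin (2 * h) => (⟨winPos h phi p, winPos_lt hh _ p⟩ : Fin (2 * h))
  have hbij : Function.Bijective f := Finite.injective_iff_bijective.1 (winPos_injective hh p)
  have h1 : (univ.filter fun phi : Fin (2 * h) => side h phi p = true).card = h := by
    have : (univ.filter fun phi : Fin (2 * h) => side h phi p = true).card = (Finset.range h).card := by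
      refine Finset.card_bij (fun phi _ => winPos h phi p) ?_ ?_ ?_
      · intro a ha; simpa [side_eq] using ha
      · intro a _ b _ hab; exact winPos_injective hh p (Fin.ext hab)
      · intro x hx
        rw [Finset.mem_range] at hx
        obtain ⟨a, ha⟩ := hbij.2 ⟨x, by omega⟩
        have ha' : winPos h a p = x := congrArg Fin.val ha
        exact ⟨a, by simpa [side_eq, ha'] using hx, ha'⟩
    simpa using this
  have h2 := Finset.card_filter_add_card_filter_not (s := (univ : Finset (Fin (2 * h))))
    (p := fun phi => side h phi p = true)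
  simp only [Finset.card_univ, Fintype.card_fin, Bool.not_eq_true] at h2
  cases e <;> omega

lemma card_side_ne (hh : 1 ≤ h) {lo d : ℕ} {p q : Fin G} (hd : d ≤ lo) (hdh : d ≤ h)
    (hpq : p.val % (2 * h) = (q.val + d) % (2 * h)) :
    (univ.filter fun phi : Fin (2 * h) => side h phi p ≠ side h phi q).card ≤ 2 * lo := by
  refine (Finset.card_le_card_of_injOn (fun phi : Fin (2 * h) => winPos h phi q)
    (t := Finset.Ico (h - d) h ∪ Finset.Ico (2 * h - d) (2 * h)) ?_ ?_).trans ?_
  · intro phi hphi
    simp only [Finset.coe_filter, Finset.mem_univ, true_and, Set.mem_ofPred_eq] at hphi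
    rw [side_eq, side_eq, winPos_add phi.isLt hpq] at hphi
    have hx := winPos_lt hh phi.val q
    simp only [Finset.coe_union, Set.mem_union, Finset.coe_Ico, Set.mem_Ico]
    by_cases hlt : winPos h phi q + d < 2 * h
    · rw [Nat.mod_eq_of_lt hlt] at hphi
      rcases Nat.lt_or_ge (winPos h phi q) h with h1 | h1
      · left
        refine ⟨?_, h1⟩
        by_contra h2
        exact hphi (by simp [h1, show winPos h phi q + d < h by omega])
      · exact absurd (by simp [show ¬ winPos h phi q < h by omega,
          show ¬ winPos h phi q + d < h by omega]) hphi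
    · right; omega
  · intro a _ b _ hab; exact winPos_injective hh q (Fin.ext hab)
  · refine (Finset.card_union_le _ _).trans ?_
    simp only [Nat.card_Ico]
    omega

lemma card_side_ne_of_close [NeZero G] (hh : 1 ≤ h) (hG : 2 * h ∣ G) {lo : ℕ} (hlo : lo ≤ h)
    {p q : Fin G} (hc : (p.val + G - q.val) % G ≤ lo ∨ (q.val + G - p.val) % G ≤ lo) :
    (univ.filter fun phi : Fin (2 * h) => side h phi p ≠ side h phi q).card ≤ 2 * lo := by
  have key : ∀ a b : Fin G, (a.val + G - b.val) % G ≤ lo →
      a.val % (2 * h) = (b.val + (a.val + G - b.val) % G) % (2 * h) := by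
    intro a b _
    have e : (b.val + (a.val + G - b.val) % G) % G = a.val := by
      rw [Nat.add_mod_mod, show b.val + (a.val + G - b.val) = a.val + G by omega,
        Nat.add_mod_right, Nat.mod_eq_of_lt a.isLt]
    conv_lhs => rw [← e]
    rw [Nat.mod_mod_of_dvd _ hG]
  rcases hc with hc | hc
  · exact card_side_ne hh hc (hc.trans hlo) (key p q hc)
  · simp only [ne_comm (a := side h _ p)]
    exact card_side_ne hh hc (hc.trans hlo) (key q p hc)

end Side

section Scale

variable {A G h : ℕ} {β : Type*}

/-- Two touched blocks of one interval lie in different halves. -/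
def Split (h : ℕ) (phi : Fin A → Fin (2 * h)) (T : Finset (Fin A × Fin G)) : Prop :=
  ∃ p ∈ T, ∃ q ∈ T, p.1 = q.1 ∧ side h (phi p.1).val p.2 ≠ side h (phi p.1).val q.2

open Classical in
/-- A touched block of each interval, if there is one. -/
noncomputable def anchor [NeZero G] (T : Finset (Fin A × Fin G)) (a : Fin A) : Fin G :=
  if hex : ∃ g, (a, g) ∈ T then hex.choose else 0

lemma anchor_mem [NeZero G] {T : Finset (Fin A × Fin G)} {p : Fin A × Fin G} (hp : p ∈ T) :
    (p.1, anchor T p.1) ∈ T := by
  have hex : ∃ g, (p.1, g) ∈ T := ⟨p.2, hp⟩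
  rw [anchor, dif_pos hex]
  exact hex.choose_spec

lemma piFun_involutive [NeZero G] (hh : 1 ≤ h) (hG : 2 * h ∣ G) (phi : Fin A → Fin (2 * h)) :
    Function.Involutive (piFun (G := G) h phi) := fun p => by
  simp only [piFun, side_shiftBy hh hG (phi p.1).isLt, shiftBy_not]

lemma touched_image {P : Type*} [DecidableEq P] [DecidableEq β] (f : P → P)
    (S : Finset (P × β)) : touched (S.image (liftFun f)) = (touched S).image f := by
  simp only [touched, Finset.image_image]
  rfl

lemma split_image [NeZero G] (hh : 1 ≤ h) (hG : 2 * h ∣ G) (phi : Fin A → Fin (2 * h))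
    (T : Finset (Fin A × Fin G)) : Split h phi (T.image (piFun h phi)) ↔ Split h phi T := by
  have hflip : ∀ x : Fin A × Fin G,
      side h (phi x.1).val (piFun h phi x).2 = !side h (phi x.1).val x.2 := fun x =>
    side_shiftBy hh hG (phi x.1).isLt _ _
  constructor
  · rintro ⟨p, hp, q, hq, hpq, hne⟩
    obtain ⟨x, hx, rfl⟩ := Finset.mem_image.1 hp
    obtain ⟨y, hy, rfl⟩ := Finset.mem_image.1 hq
    have hxy : x.1 = y.1 := hpq
    refine ⟨x, hx, y, hy, hxy, fun he => hne ?_⟩
    show side h (phi x.1).val (piFun h phi x).2 = side h (phi x.1).val (piFun h phi y).2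
    rw [hflip, hxy, hflip, ← hxy, he]
  · rintro ⟨x, hx, y, hy, hxy, hne⟩
    refine ⟨_, Finset.mem_image_of_mem _ hx, _, Finset.mem_image_of_mem _ hy, hxy, fun he => hne ?_⟩
    change side h (phi x.1).val (piFun h phi x).2 = side h (phi x.1).val (piFun h phi y).2 at he
    rw [hflip, hxy, hflip, ← hxy] at he
    simpa using he

lemma image_pi_eq_sig [NeZero G] [DecidableEq β] {phi : Fin A → Fin (2 * h)}
    {S : Finset ((Fin A × Fin G) × β)} (hS : ¬ Split h phi (touched S)) :
    S.image (liftFun (piFun h phi)) =
      S.image (liftFun (sigFun h fun a => side h (phi a).val (anchor (touched S) a))) := by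
  refine Finset.image_congr fun x hx => ?_
  have hp : x.1 ∈ touched S := Finset.mem_image_of_mem _ hx
  have he : side h (phi x.1.1).val x.1.2 = side h (phi x.1.1).val (anchor (touched S) x.1.1) := by
    by_contra hne
    exact hS ⟨x.1, hp, (x.1.1, anchor (touched S) x.1.1), anchor_mem hp, rfl, hne⟩
  show (piFun h phi x.1, x.2) = (sigFun h _ x.1, x.2)
  simp only [piFun, sigFun, he]

lemma sum_side_comp (hh : 1 ≤ h) (g : Fin A → Fin G) (F : (Fin A → Bool) → ℝ) :
    ∑ phi : Fin A → Fin (2 * h), F (fun a => side h (phi a).val (g a)) =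
      (h : ℝ) ^ A * ∑ eps, F eps := by
  classical
  rw [← Finset.sum_fiberwise univ (fun phi : Fin A → Fin (2 * h) =>
    fun a => side h (phi a).val (g a)), Finset.mul_sum]
  refine Finset.sum_congr rfl fun eps _ => ?_
  rw [Finset.sum_congr rfl fun phi hphi => by rw [(Finset.mem_filter.1 hphi).2],
    Finset.sum_const, nsmul_eq_mul]
  congr 1
  have : (univ.filter fun phi : Fin A → Fin (2 * h) =>
      (fun a => side h (phi a).val (g a)) = eps) =
      Fintype.piFinset fun a => univ.filter fun phi : Fin (2 * h) => side h phi.val (g a) = eps a := by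
    ext phi; simp [funext_iff]
  rw [this, Fintype.card_piFinset]
  simp [card_side hh]

open Classical in
lemma card_split_le [NeZero G] (hh : 1 ≤ h) (hG : 2 * h ∣ G) {lo : ℕ} (hlo : lo ≤ h)
    {T : Finset (Fin A × Fin G)} (hnear : Near lo T) :
    (univ.filter fun phi : Fin A → Fin (2 * h) => Split h phi T).card * h ≤
      T.card * lo * (2 * h) ^ A := by
  have hsub : (univ.filter fun phi : Fin A → Fin (2 * h) => Split h phi T) ⊆
      T.biUnion fun p => univ.filter fun phi : Fin A → Fin (2 * h) =>
        side h (phi p.1).val p.2 ≠ side h (phi p.1).val (anchor T p.1) := by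
    intro phi hphi
    obtain ⟨p, hp, q, hq, hpq, hne⟩ := (Finset.mem_filter.1 hphi).2
    simp only [Finset.mem_biUnion, Finset.mem_filter, Finset.mem_univ, true_and]
    by_contra hall
    push Not at hall
    refine hne ((hall p hp).trans ?_)
    rw [hpq]
    exact (hall q hq).symm
  refine (Nat.mul_le_mul_right h ((Finset.card_le_card hsub).trans Finset.card_biUnion_le)).trans ?_
  rw [Finset.sum_mul, mul_assoc T.card, ← smul_eq_mul T.card, ← Finset.sum_const]
  refine Finset.sum_le_sum fun p hp => ?_
  have hc := card_side_ne_of_close hh hG hlo (hnear p hp (p.1, anchor T p.1) (anchor_mem hp) rfl)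
  set P : Fin (2 * h) → Prop := fun f => side h f.val p.2 ≠ side h f.val (anchor T p.1)
  have hpi : (univ.filter fun phi : Fin A → Fin (2 * h) => P (phi p.1)) =
      Fintype.piFinset fun a => if a = p.1 then univ.filter P else univ := by
    ext phi
    simp only [Finset.mem_filter, Finset.mem_univ, true_and, Fintype.mem_piFinset]
    refine ⟨fun hP a => ?_, fun hP => ?_⟩
    · split_ifs with ha
      · subst ha; simpa using hP
      · simp
    · simpa using hP p.1
  rw [hpi, Fintype.card_piFinset, ← Finset.mul_prod_erase univ _ (Finset.mem_univ p.1), if_pos rfl,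
    Finset.prod_congr rfl fun a ha => by rw [if_neg (Finset.ne_of_mem_erase ha)]]
  rw [Finset.prod_const, Finset.card_univ, Fintype.card_fin, Finset.card_erase_of_mem
    (Finset.mem_univ _), Finset.card_univ, Fintype.card_fin]
  have hA : 0 < A := Nat.pos_of_ne_zero (by rintro rfl; exact p.1.elim0)
  calc (univ.filter P).card * (2 * h) ^ (A - 1) * h ≤ 2 * lo * (2 * h) ^ (A - 1) * h := by
        gcongr
    _ = lo * ((2 * h) ^ (A - 1) * (2 * h)) := by ring
    _ = lo * (2 * h) ^ A := by rw [← pow_succ, Nat.sub_add_cancel hA]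

open Classical in
lemma card_split_le_badBound [NeZero G] (hh : 1 ≤ h) (hG : 2 * h ∣ G) {lo : ℕ} (hlo : lo ≤ h)
    (T : Finset (Fin A × Fin G)) :
    ((univ.filter fun phi : Fin A → Fin (2 * h) => Split h phi T).card : ℝ) ≤
      ((2 * h : ℕ) : ℝ) ^ A * badBound h lo T := by
  have h1 : ((univ.filter fun phi : Fin A → Fin (2 * h) => Split h phi T).card : ℝ) ≤
      ((2 * h : ℕ) : ℝ) ^ A := by
    exact_mod_cast (Finset.card_le_univ _).trans_eq (by simp)
  unfold badBound
  split_ifs with hn
  · rw [mul_min_of_nonneg _ _ (by positivity), mul_one]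
    refine le_min h1 ?_
    have h2 := card_split_le hh hG hlo hn
    have hh' : (0 : ℝ) < h := by exact_mod_cast hh
    rw [← mul_div_assoc, le_div_iff₀ hh']
    calc _ ≤ ((T.card * lo * (2 * h) ^ A : ℕ) : ℝ) := by exact_mod_cast h2
      _ = _ := by push_cast; ring
  · simpa using h1

end Scale

end OneScale

open OneScale in
theorem one_scale {A G h lo : ℕ} [NeZero G] {β : Type*} [Fintype β] [DecidableEq β]
    (hh : 1 ≤ h) (hG : 2 * h ∣ G) (hlo : 2 * lo ≤ 2 * h)
    (w : Finset ((Fin A × Fin G) × β) → ℝ) :
    (∑ phi : Fin A → Fin (2 * h), ∑ S, (w S - w (S.image (liftFun (piFun h phi)))) ^ 2)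
        / ((2 * h : ℕ) : ℝ) ^ A ≤
      (∑ eps : Fin A → Bool, ∑ S, (w S - w (S.image (liftFun (sigFun h eps)))) ^ 2) / 2 ^ A
        + 4 * ∑ S, w S ^ 2 * badBound h lo (touched S) := by
  classical
  let img : (Fin A → Fin (2 * h)) → Finset ((Fin A × Fin G) × β) → Finset ((Fin A × Fin G) × β) := fun phi S => S.image (liftFun (piFun h phi))
  let sg : (Fin A → Bool) → Finset ((Fin A × Fin G) × β) → ℝ := fun eps S => (w S - w (S.image (liftFun (sigFun h eps)))) ^ 2
  have himg : ∀ phi, Function.Involutive (img phi) := fun phi S => by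
    simp only [img, Finset.image_image]
    rw [show liftFun (piFun h phi) ∘ liftFun (piFun h phi) =
      (id : (Fin A × Fin G) × β → _) from funext fun x => by
        simp [liftFun, piFun_involutive hh hG phi x.1], Finset.image_id]
  have hpt : ∀ phi S, (w S - w (img phi S)) ^ 2 ≤
      sg (fun a => side h (phi a).val (anchor (touched S) a)) S +
        (2 * (if Split h phi (touched S) then w S ^ 2 else 0) +
          2 * (if Split h phi (touched S) then w (img phi S) ^ 2 else 0)) := by
    intro phi S
    by_cases hs : Split h phi (touched S)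
    · simp only [hs, if_true, sg]
      nlinarith [sq_nonneg (w S + w (img phi S)),
        sq_nonneg (w S - w (S.image (liftFun (sigFun h fun a => side h (phi a).val
          (anchor (touched S) a)))))]
    · simp only [hs, if_false, sg, img, image_pi_eq_sig hs]
      simp
  have hsym : ∀ phi, ∑ S : Finset ((Fin A × Fin G) × β), (if Split h phi (touched S) then w (img phi S) ^ 2 else 0) =
      ∑ S : Finset ((Fin A × Fin G) × β), (if Split h phi (touched S) then w S ^ 2 else 0) := fun phi =>
    Fintype.sum_equiv (himg phi).toPerm _ _ fun S => by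
      show _ = if Split h phi (touched (img phi S)) then w (img phi S) ^ 2 else 0
      simp only [img, touched_image, split_image hh hG]
  have h1 : ∑ phi, ∑ S, (w S - w (img phi S)) ^ 2 ≤
      (h : ℝ) ^ A * ∑ eps, ∑ S, sg eps S +
        4 * ∑ S : Finset ((Fin A × Fin G) × β), w S ^ 2 * (((2 * h : ℕ) : ℝ) ^ A * badBound h lo (touched S)) := by
    calc ∑ phi, ∑ S, (w S - w (img phi S)) ^ 2
        ≤ ∑ phi, ∑ S, (sg (fun a => side h (phi a).val (anchor (touched S) a)) S +
          (2 * (if Split h phi (touched S) then w S ^ 2 else 0) +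
            2 * (if Split h phi (touched S) then w (img phi S) ^ 2 else 0))) :=
          Finset.sum_le_sum fun phi _ => Finset.sum_le_sum fun S _ => hpt phi S
      _ = (∑ S, ∑ phi : Fin A → Fin (2 * h), sg (fun a => side h (phi a).val (anchor (touched S) a)) S) +
          4 * ∑ S : Finset ((Fin A × Fin G) × β), ∑ phi : Fin A → Fin (2 * h), (if Split h phi (touched S) then w S ^ 2 else 0) := by
          simp only [Finset.sum_add_distrib, ← Finset.mul_sum, hsym]
          rw [Finset.sum_comm (f := fun (phi : Fin A → Fin (2 * h)) (S : Finset ((Fin A × Fin G) × β)) =>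
            if Split h phi (touched S) then w S ^ 2 else 0),
            Finset.sum_comm (f := fun (phi : Fin A → Fin (2 * h)) (S : Finset ((Fin A × Fin G) × β)) =>
              sg (fun a => side h (phi a).val (anchor (touched S) a)) S)]
          ring
      _ ≤ _ := by
          refine add_le_add (le_of_eq ?_) (mul_le_mul_of_nonneg_left ?_ (by norm_num))
          · simp only [fun S : Finset ((Fin A × Fin G) × β) => sum_side_comp hh (anchor (touched S)) fun eps => sg eps S]
            rw [← Finset.mul_sum, Finset.sum_comm]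
          · refine Finset.sum_le_sum fun S _ => ?_
            rw [← Finset.sum_filter, Finset.sum_const, nsmul_eq_mul, mul_comm _ (w S ^ 2)]
            exact mul_le_mul_of_nonneg_left
              (card_split_le_badBound hh hG (by omega) _) (sq_nonneg _)
  have hpos : (0 : ℝ) < ((2 * h : ℕ) : ℝ) ^ A := by
    have : 0 < 2 * h := by omega
    positivity
  rw [div_le_iff₀ hpos]
  refine h1.trans_eq ?_
  have hh' : (h : ℝ) ^ A * 2 ^ A = ((2 * h : ℕ) : ℝ) ^ A := by
    rw [← mul_pow]; push_cast; ring
  simp only [sg]
  rw [add_mul, div_mul_eq_mul_div, ← hh']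
  simp only [mul_left_comm (w _ ^ 2), ← Finset.mul_sum]
  field_simp

end Vale.Agent.P238
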