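import Vale.Agent.P238.OuterDefs

/-!
# P238: the scale permutations are bijections
-/

namespace Vale.Agent.P238

theorem val_shiftBy {G : ℕ} [NeZero G] {h : ℕ} (hh : h < G) (b : Bool) (p : Fin G) :
    (shiftBy h b p).val = (p.val + (if b then h else G - h)) % G := by
  cases b
  · simp [shiftBy, Fin.sub_def, Fin.val_ofNat, Nat.mod_eq_of_lt hh, Nat.add_comm]
  · simp [shiftBy, Fin.add_def, Fin.val_ofNat, Nat.mod_eq_of_lt hh]

theorem side_shiftBy {G : ℕ} [NeZero G] {h : ℕ} (hh : 1 ≤ h) (hG : 2 * h ∣ G) {phi : ℕ}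
    (hphi : phi < 2 * h) (b : Bool) (p : Fin G) :
    side h phi (shiftBy h b p) = !side h phi p := by
  obtain ⟨k, hk⟩ := hG
  have hG0 : 0 < G := Nat.pos_of_ne_zero (NeZero.ne G)
  have hk0 : 0 < k := by
    rcases Nat.eq_zero_or_pos k with rfl | h0
    · simp at hk; omega
    · exact h0
  have hhG : h < G := by
    have : 2 * h * 1 ≤ 2 * h * k := Nat.mul_le_mul_left _ hk0
    omega
  have key : ((shiftBy h b p).val + 2 * h - phi) % (2 * h)
      = ((p.val + 2 * h - phi) % (2 * h) + h) % (2 * h) := by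
    rw [val_shiftBy hhG]
    set u := p.val + 2 * h - phi with hu
    set c := (if b then h else G - h) with hc
    have e1 : (p.val + c) % G + 2 * h - phi = (p.val + c) % G + (2 * h - phi) := by omega
    have e3 : ((p.val + c) % G) % (2 * h) = (p.val + c) % (2 * h) := by
      exact Nat.mod_mod_of_dvd _ (Dvd.intro k hk.symm)
    rw [e1, Nat.add_mod, e3, ← Nat.add_mod]
    have e4 : p.val + c + (2 * h - phi) = u + c := by omega
    rw [e4]
    cases b
    · simp only [Bool.false_eq_true, if_false] at hc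
      obtain ⟨k', rfl⟩ : ∃ k', k = k' + 1 := ⟨k - 1, by omega⟩
      have : c = h + 2 * h * k' := by
        rw [hc, hk, Nat.mul_succ]; omega
      rw [this, ← Nat.add_assoc, Nat.add_mul_mod_self_left, Nat.mod_add_mod]
    · simp only [if_true] at hc
      rw [hc, Nat.mod_add_mod]
  unfold side
  rw [key]
  have hq : (p.val + 2 * h - phi) % (2 * h) < 2 * h := Nat.mod_lt _ (by omega)
  set q := (p.val + 2 * h - phi) % (2 * h)
  by_cases hqh : q < h
  · rw [Nat.mod_eq_of_lt (by omega)]
    simp [hqh]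
  · rw [Nat.mod_eq_sub_mod (by omega), Nat.mod_eq_of_lt (by omega)]
    simp [hqh]
    omega

theorem shiftBy_not {G : ℕ} [NeZero G] (h : ℕ) (b : Bool) (p : Fin G) :
    shiftBy h (!b) (shiftBy h b p) = p := by
  cases b <;> simp [shiftBy]

theorem piFun_involutive {A G h : ℕ} [NeZero G] (hh : 1 ≤ h) (hG : 2 * h ∣ G)
    (phi : Fin A → Fin (2 * h)) : Function.Involutive (piFun (G := G) h phi) := by
  rintro ⟨a, g⟩
  simp only [piFun]
  rw [side_shiftBy hh hG (phi a).isLt, shiftBy_not]

/-- The block swap as a permutation. -/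
def piPerm {A G h : ℕ} [NeZero G] (hh : 1 ≤ h) (hG : 2 * h ∣ G)
    (phi : Fin A → Fin (2 * h)) : Equiv.Perm (Fin A × Fin G) :=
  (piFun_involutive hh hG phi).toPerm _

/-- The rotation of intervals as a permutation. -/
def sigPerm {A G : ℕ} [NeZero G] (h : ℕ) (eps : Fin A → Bool) : Equiv.Perm (Fin A × Fin G) where
  toFun := sigFun h eps
  invFun := sigFun h (fun a => !eps a)
  left_inv := by rintro ⟨a, g⟩; simp [sigFun, shiftBy_not]
  right_inv := by
    rintro ⟨a, g⟩
    simp only [sigFun]
    have := shiftBy_not (G := G) h (!eps a) g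
    rw [Bool.not_not] at this
    rw [this]

end Vale.Agent.P238
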