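import Vale.Agent.P238.Edit
import Vale.Agent.P238.PermLemmas

/-!
# P238: the two kinds of scale moves in edit distance
-/

namespace Vale.Agent.P238

open Finset

/-- Conjugate a permutation of blocks to bit indices. -/
def bitPerm {Q β ι : Type*} (E : Q × β ≃ ι) (π : Equiv.Perm Q) : Equiv.Perm ι :=
  (E.symm.trans (π.prodCongr (Equiv.refl β))).trans E

theorem bitPerm_apply {Q β ι : Type*} (E : Q × β ≃ ι) (π : Equiv.Perm Q) (q : Q) (k : β) :
    bitPerm E π (E (q, k)) = E (π q, k) := by
  simp [bitPerm]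

/-- Rotation of segments, with indices as natural numbers. -/
theorem EDn_rot_nat {n0 n A L : ℕ} (e : n0 = A * L) (hL : 0 < L) (hn : n0 ≤ n) (t c : ℕ → ℕ)
    (ht : ∀ a < A, t a < L) (hc : ∀ a < A, t a ≤ c a ∨ L - t a ≤ c a) (x y : Fin n0 → Bool)
    (hy : ∀ i : Fin n0, ∃ j : Fin n0,
      j.val = (i.val / L) * L + (i.val % L + t (i.val / L)) % L ∧ y i = x j) :
    EDn (n := n) (pad x) (pad y) ≤ 2 * ∑ a ∈ range A, c a := by
  subst e
  haveI : NeZero L := ⟨hL.ne'⟩
  have h := EDn_pad_rot hn (fun a : Fin A => ⟨t a.val, ht a.val a.isLt⟩) (fun a => c a.val)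
    (fun a => hc a.val a.isLt) x
  have hyeq : y = fun i => x (finProdFinEquiv ((finProdFinEquiv.symm i).1,
      (finProdFinEquiv.symm i).2 + (⟨t (finProdFinEquiv.symm i).1.val,
        ht _ (finProdFinEquiv.symm i).1.isLt⟩ : Fin L))) := by
    funext i
    obtain ⟨j, hj, hyj⟩ := hy i
    rw [hyj]
    congr 1
    apply Fin.ext
    rw [hj]
    simp [Fin.add_def]
    ring
  rw [hyeq, ← Fin.sum_univ_eq_sum_range]
  exact h

theorem ED_sigma {A G P h n0 n : ℕ} [NeZero G] (hh : h < G) (hP : 0 < P)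
    (E : (Fin A × Fin G) × Fin P ≃ Fin n0)
    (hE : ∀ a g k, (E ((a, g), k)).val = (a.val * G + g.val) * P + k.val)
    (e0 : n0 = A * (G * P)) (hn : n0 ≤ n) (eps : Fin A → Bool) (x : Fin n0 → Bool) :
    EDn (n := n) (pad x) (pad fun i => x (bitPerm E (sigPerm h eps) i)) ≤ 2 * (A * (h * P)) := by
  let tt : ℕ → ℕ := fun a =>
    if ha : a < A then (if eps ⟨a, ha⟩ then h * P else (G - h) * P % (G * P)) else 0
  have hGP : 0 < G * P := Nat.mul_pos (Nat.pos_of_ne_zero (NeZero.ne G)) hP
  have hlt : h * P < G * P := Nat.mul_lt_mul_of_pos_right hh hP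
  refine le_trans (EDn_rot_nat e0 hGP hn tt (fun _ => h * P) ?_ ?_ x _ ?_) (by simp)
  · intro a ha
    simp only [tt, dif_pos ha]
    split_ifs
    · exact hlt
    · exact Nat.mod_lt _ hGP
  · intro a ha
    simp only [tt, dif_pos ha]
    split_ifs
    · exact Or.inl le_rfl
    · rcases Nat.eq_zero_or_pos h with rfl | h0
      · left; simp
      · right
        rw [Nat.mod_eq_of_lt (Nat.mul_lt_mul_of_pos_right (by omega) hP), Nat.sub_mul]
        omega
  · intro i
    refine ⟨bitPerm E (sigPerm h eps) i, ?_, rfl⟩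
    obtain ⟨⟨⟨a, g⟩, k⟩, rfl⟩ := E.surjective i
    rw [bitPerm_apply]
    show (E ((a, shiftBy h (eps a) g), k)).val = _
    rw [hE, hE, val_shiftBy hh]
    have hgk : g.val * P + k.val < G * P := by
      have := g.isLt; have := k.isLt
      calc g.val * P + k.val < g.val * P + P := by omega
        _ = (g.val + 1) * P := by ring
        _ ≤ G * P := Nat.mul_le_mul_right P (by omega)
    have ev : (a.val * G + g.val) * P + k.val = (g.val * P + k.val) + (G * P) * a.val := by ring
    rw [ev, Nat.add_mul_div_left _ _ hGP, Nat.div_eq_of_lt hgk, Nat.zero_add,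
      Nat.add_mul_mod_self_left, Nat.mod_eq_of_lt hgk]
    simp only [tt, dif_pos a.isLt, Fin.eta]
    set c := (if eps a then h else G - h) with hc
    have ec : ((g.val * P + k.val) + (if eps a then h * P else (G - h) * P % (G * P))) % (G * P)
        = ((g.val + c) * P + k.val) % (G * P) := by
      rw [hc]
      split_ifs
      · congr 1; ring
      · rw [Nat.add_mod_mod]; congr 1; ring
    rw [ec]
    have em : ((g.val + c) * P + k.val) % (G * P) = (g.val + c) % G * P + k.val := by
      have h1 : (g.val + c) % G + G * ((g.val + c) / G) = g.val + c := Nat.mod_add_div _ _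
      have hlt2 : (g.val + c) % G * P + k.val < G * P := by
        have := Nat.mod_lt (g.val + c) (Nat.pos_of_ne_zero (NeZero.ne G))
        calc (g.val + c) % G * P + k.val < ((g.val + c) % G + 1) * P := by
              rw [Nat.add_one_mul]; exact Nat.add_lt_add_left k.isLt _
          _ ≤ G * P := Nat.mul_le_mul_right P (by omega)
      conv_lhs => rw [← h1]
      have e2 : ((g.val + c) % G + G * ((g.val + c) / G)) * P + k.val
          = ((g.val + c) % G * P + k.val) + (G * P) * ((g.val + c) / G) := by ring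
      rw [e2, Nat.add_mul_mod_self_left, Nat.mod_eq_of_lt hlt2]
    rw [em]
    ring

open Classical in
theorem ED_pi_far {A G P h R n0 n : ℕ} [NeZero G] (hh : 1 ≤ h) (hR : 2 ≤ R) (hGR : G = 2 * h * R)
    (hP : 0 < P) (E : (Fin A × Fin G) × Fin P ≃ Fin n0)
    (hE : ∀ a g k, (E ((a, g), k)).val = (a.val * G + g.val) * P + k.val)
    (e0 : n0 = A * (G * P)) (hn0 : 1000000 ≤ n0) (hn : n0 ≤ n) (phi : Fin A → Fin (2 * h)) :
    (2 : ℝ) ^ n0 * n0 / 2000 ≤ ∑ x : Fin n0 → Bool,
      (EDn (n := n) (pad x)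
        (pad fun i => x (bitPerm E (piPerm hh (Dvd.intro R hGR.symm) phi) i)) : ℝ) := by
  set π := bitPerm E (piPerm (G := G) hh (Dvd.intro R hGR.symm) phi) with hπ
  have hhG : h < G := by
    have : 2 * h * 1 ≤ 2 * h * R := Nat.mul_le_mul_left _ (by omega)
    omega
  let pos : Fin A × Fin (R - 1) × Fin h × Fin P → Fin A × ℕ :=
    fun z => (z.1, (phi z.1).val + 2 * h * z.2.1.val + z.2.2.1.val)
  have hbound : ∀ z, (pos z).2 + h < G := by
    intro z
    have h1 := (phi z.1).isLt
    have h2 := z.2.2.1.isLt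
    have h3 := z.2.1.isLt
    have h4 : 2 * h * (z.2.1.val + 1 + 1) ≤ 2 * h * R := Nat.mul_le_mul_left _ (by omega)
    simp only [pos]
    rw [Nat.mul_succ, Nat.mul_succ] at h4
    omega
  let low : Fin A × Fin (R - 1) × Fin h × Fin P → Fin n0 := fun z =>
    E ((z.1, ⟨(pos z).2, by have := hbound z; omega⟩), z.2.2.2)
  let high : Fin A × Fin (R - 1) × Fin h × Fin P → Fin n0 := fun z =>
    E ((z.1, ⟨(pos z).2 + h, hbound z⟩), z.2.2.2)
  have hside : ∀ z : Fin A × Fin (R - 1) × Fin h × Fin P,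
      side h (phi z.1).val (⟨(pos z).2, by have := hbound z; omega⟩ : Fin G) = true := by
    intro z
    simp only [side, pos, decide_eq_true_eq]
    have h2 := z.2.2.1.isLt
    have e : (phi z.1).val + 2 * h * z.2.1.val + z.2.2.1.val + 2 * h - (phi z.1).val
        = z.2.2.1.val + 2 * h * (z.2.1.val + 1) := by
      rw [Nat.mul_succ]; omega
    rw [e, Nat.add_mul_mod_self_left, Nat.mod_eq_of_lt (by omega)]
    exact h2
  have hπlow : ∀ z, π (low z) = high z := by
    intro z
    simp only [hπ, low, high, bitPerm_apply]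
    congr 2
    show piFun h phi _ = _
    simp only [piFun, hside]
    refine Prod.ext rfl (Fin.ext ?_)
    rw [val_shiftBy hhG]
    simp only [if_true]
    exact Nat.mod_eq_of_lt (hbound z)
  have hπhigh : ∀ z, π (high z) = low z := by
    intro z
    rw [← hπlow z]
    simp only [hπ, low, bitPerm_apply]
    congr 2
    exact piFun_involutive hh (Dvd.intro R hGR.symm) phi _
  have hlowinj : Function.Injective low := by
    rintro ⟨a, k, q, b⟩ ⟨a', k', q', b'⟩ hz
    have h1 := E.injective hz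
    simp only [Prod.mk.injEq, Fin.mk.injEq, pos] at h1
    obtain ⟨⟨rfl, h2⟩, rfl⟩ := h1
    have h3 : q.val + 2 * h * k.val = q'.val + 2 * h * k'.val := by omega
    have hq : q.val = q'.val := by
      have h4 := congrArg (fun u => u % (2 * h)) h3
      simp only [Nat.add_mul_mod_self_left] at h4
      have := q.isLt; have := q'.isLt
      rwa [Nat.mod_eq_of_lt (by omega), Nat.mod_eq_of_lt (by omega)] at h4
    rw [hq] at h3
    have hk : k.val = k'.val := Nat.eq_of_mul_eq_mul_left (by omega : 0 < 2 * h) (by omega)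
    simp [Fin.ext hq, Fin.ext hk]
  have hlt : ∀ z, low z < high z := by
    intro z
    show (low z).val < (high z).val
    simp only [low, high, hE]
    have : ((z.1.val * G + (pos z).2) + 1) * P ≤ (z.1.val * G + ((pos z).2 + h)) * P :=
      Nat.mul_le_mul_right P (by omega)
    rw [Nat.succ_mul] at this
    omega
  set H : Finset (Fin n0) := univ.image low with hH
  have hmem : ∀ p ∈ H, ∃ z, low z = p := fun p hp => by
    obtain ⟨z, -, hz⟩ := mem_image.mp hp; exact ⟨z, hz⟩
  have hcard : n0 ≤ 4 * H.card := by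
    rw [hH, card_image_of_injective _ hlowinj]
    simp only [card_univ, Fintype.card_prod, Fintype.card_fin]
    rw [e0, hGR]
    have h1 : R ≤ 2 * (R - 1) := by omega
    calc A * (2 * h * R * P) = (2 * (A * h * P)) * R := by ring
      _ ≤ (2 * (A * h * P)) * (2 * (R - 1)) := Nat.mul_le_mul_left _ h1
      _ = 4 * (A * ((R - 1) * (h * P))) := by ring
  have hfar := far_perm hn0 π H π π.injective.injOn
    (fun p hp => by obtain ⟨z, rfl⟩ := hmem p hp; rw [hπlow]; exact hlt z)
    (fun p hp => by obtain ⟨z, rfl⟩ := hmem p hp; rw [hπlow, hπhigh]; exact hlt z)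
    (fun p hp hp' => by
      obtain ⟨z, rfl⟩ := hmem p hp
      obtain ⟨z', hz'⟩ := hmem _ hp'
      rw [hπlow] at hz'
      have h1 := hlt z'
      have h2 := hlt z
      have h3 : high z' = low z := by rw [← hπlow z', hz', hπhigh]
      rw [hz', h3] at h1
      exact absurd (h1.trans h2) (lt_irrefl _))
    hcard
  set good := univ.filter (fun x : Fin n0 → Bool => Common (n0 / 1000) x (fun i => x (π i)))
    with hgood
  have hbig : ∀ x, x ∉ good →
      (n0 : ℝ) / 1000 ≤ (EDn (n := n) (pad x) (pad fun i => x (π i)) : ℝ) := by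
    intro x hx
    have h1 : n0 / 1000 + 1 ≤ EDn (n := n) (pad x) (pad fun i => x (π i)) := by
      by_contra hcon
      apply hx
      obtain ⟨l, l1, l2, l3⟩ := common_of_ED_pad hn x (fun i => x (π i))
      exact mem_filter.mpr ⟨mem_univ _, l, l1, l2, by omega⟩
    have h2 : n0 < 1000 * (n0 / 1000 + 1) := by omega
    have h3 : (n0 : ℝ) < 1000 * ((n0 / 1000 : ℕ) + 1 : ℝ) := by exact_mod_cast h2
    have h4 : ((n0 / 1000 : ℕ) + 1 : ℝ) ≤ (EDn (n := n) (pad x) (pad fun i => x (π i)) : ℝ) := by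
      exact_mod_cast h1
    rw [div_le_iff₀ (by norm_num)]
    linarith
  have hcompl : (2 : ℝ) ^ n0 / 2 ≤ ((goodᶜ).card : ℝ) := by
    have h1 : good.card + goodᶜ.card = 2 ^ n0 := by
      rw [card_add_card_compl]; simp
    have h2 : 2 ^ n0 ≤ 2 * goodᶜ.card := by
      have : 2 * good.card ≤ 2 ^ n0 := hfar
      omega
    have h3 : (2 : ℝ) ^ n0 ≤ 2 * (goodᶜ.card : ℝ) := by exact_mod_cast h2
    linarith
  calc (2 : ℝ) ^ n0 * n0 / 2000 = (2 : ℝ) ^ n0 / 2 * ((n0 : ℝ) / 1000) := by ring
    _ ≤ (goodᶜ.card : ℝ) * ((n0 : ℝ) / 1000) := by gcongr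
    _ = ∑ x ∈ goodᶜ, ((n0 : ℝ) / 1000) := by simp
    _ ≤ ∑ x ∈ goodᶜ, (EDn (n := n) (pad x) (pad fun i => x (π i)) : ℝ) :=
        sum_le_sum fun x hx => hbig x (mem_compl.mp hx)
    _ ≤ _ := sum_le_univ_sum_of_nonneg fun x => Nat.cast_nonneg _

end Vale.Agent.P238
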