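import Vale.Agent.P238.OuterDefs

/-!
# P238 module A2: a set of blocks is bad at few scales

At scale `j` (`1 ≤ j`, `j + 1 ≤ M`) the intervals have length `2 ^ (r * (j + 1))`, the windows
`2 ^ (r * j)` and the threshold is `2 ^ (r * (j - 1))`.
-/

namespace Vale.Agent.P238

/-- Split a position into interval and place. -/
def splitPos (r M j : ℕ) (hj : j + 1 ≤ M) :
    Fin (2 ^ (r * M)) ≃ Fin (2 ^ (r * (M - (j + 1)))) × Fin (2 ^ (r * (j + 1))) :=
  (finCongr (by rw [← pow_add, ← Nat.mul_add, Nat.sub_add_cancel hj])).trans finProdFinEquiv.symm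

open Classical in
/-- `badBound` at scale `j`; zero outside the range of scales. -/
noncomputable def scaleBad (r M j : ℕ) (T : Finset (Fin (2 ^ (r * M)))) : ℝ :=
  if hj : j + 1 ≤ M then
    badBound (2 ^ (r * j - 1)) (2 ^ (r * (j - 1))) (T.image (splitPos r M j hj))
  else 0

/-- The distance from an element of `T` to the next one (zero for the last one). -/
def nextGap (T : Finset ℕ) (p : ℕ) : ℕ :=
  if h : (T.filter (p < ·)).Nonempty then (T.filter (p < ·)).min' h - p else 0

/-- A long stretch between two elements contains a long gap. -/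
theorem exists_gap (T : Finset ℕ) {p q : ℕ} (hp : p ∈ T) (hq : q ∈ T) (hpq : p < q) :
    ∃ p' ∈ T, nextGap T p' ≤ q - p ∧ q - p ≤ T.card * nextGap T p' := by
  classical
  set W := T.filter fun x => p ≤ x ∧ x < q with hW
  have hWne : W.Nonempty := ⟨p, by simp [hW, hp, hpq]⟩
  obtain ⟨p', hp', hmax⟩ := W.exists_max_image (nextGap T) hWne
  have hnext : ∀ x ∈ W, 0 < nextGap T x ∧ x + nextGap T x ≤ q ∧ x + nextGap T x ∈ T := by
    intro x hx
    simp only [hW, Finset.mem_filter] at hx
    have hne : (T.filter (x < ·)).Nonempty := ⟨q, by simp [hq, hx.2.2]⟩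
    have h1 := Finset.min'_mem _ hne
    have h2 := Finset.min'_le (T.filter (x < ·)) q (by simp [hq, hx.2.2])
    simp only [Finset.mem_filter] at h1
    rw [nextGap, dif_pos hne]
    refine ⟨by omega, by omega, ?_⟩
    rw [show x + ((T.filter (x < ·)).min' hne - x) = (T.filter (x < ·)).min' hne by omega]
    exact h1.1
  have key : ∀ d x, x ∈ W → q - x = d →
      d ≤ (W.filter (x ≤ ·)).card * nextGap T p' := by
    intro d
    induction d using Nat.strong_induction_on with
    | _ d ih =>
      intro x hx hd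
      obtain ⟨h0, hle, hmem⟩ := hnext x hx
      have hg := hmax x hx
      have hxW : x ∈ W.filter (x ≤ ·) := Finset.mem_filter.2 ⟨hx, le_rfl⟩
      rcases Nat.lt_or_ge (x + nextGap T x) q with hlt | hge
      · have hmemW : x + nextGap T x ∈ W := by
          simp only [hW, Finset.mem_filter] at hx ⊢
          exact ⟨hmem, by omega, hlt⟩
        have h := ih (q - (x + nextGap T x)) (by omega) _ hmemW rfl
        have hsub : W.filter (x + nextGap T x ≤ ·) ⊆ (W.filter (x ≤ ·)).erase x := by
          intro y hy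
          simp only [Finset.mem_filter, Finset.mem_erase] at hy ⊢
          exact ⟨by omega, hy.1, by omega⟩
        have hc := Finset.card_le_card hsub
        rw [Finset.card_erase_of_mem hxW] at hc
        have hc0 := Finset.card_pos.2 ⟨x, hxW⟩
        obtain ⟨e, he⟩ : ∃ e, (W.filter (x ≤ ·)).card = e + 1 := ⟨_, (Nat.sub_add_cancel hc0).symm⟩
        have := Nat.mul_le_mul_right (nextGap T p') (show (W.filter (x + nextGap T x ≤ ·)).card ≤ e
          by omega)
        rw [he, Nat.succ_mul]
        omega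
      · have hc0 : 1 ≤ (W.filter (x ≤ ·)).card := Finset.card_pos.2 ⟨x, hxW⟩
        calc d ≤ nextGap T p' := by omega
          _ = 1 * nextGap T p' := (one_mul _).symm
          _ ≤ _ := Nat.mul_le_mul_right _ hc0
  have hp'' : p' ∈ T ∧ p ≤ p' ∧ p' < q := by simpa [hW] using hp'
  refine ⟨p', hp''.1, ?_, (key _ p (by simp [hW, hp, hpq]) rfl).trans ?_⟩
  · have := (hnext p' hp').2.1
    omega
  · exact Nat.mul_le_mul_right _ (Finset.card_le_card fun y hy => by
      simp only [hW, Finset.mem_filter] at hy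
      exact hy.1.1)

/-- The scales separated by one gap. -/
theorem card_scales_le {r : ℕ} (_hr : 1 ≤ r) (M g : ℕ) :
    ((Finset.Ico 1 M).filter fun j =>
      2 ^ (r * (j - 1)) < 2 ^ r * g ∧ g < 2 ^ (r * (j + 1))).card ≤ 3 := by
  set S := (Finset.Ico 1 M).filter fun j =>
    2 ^ (r * (j - 1)) < 2 ^ r * g ∧ g < 2 ^ (r * (j + 1)) with hS
  rcases S.eq_empty_or_nonempty with h | h
  · simp [h]
  have hmem := Finset.min'_mem S h
  have hsub : S ⊆ Finset.Icc (S.min' h) (S.min' h + 2) := by
    intro j hj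
    refine Finset.mem_Icc.2 ⟨Finset.min'_le _ _ hj, ?_⟩
    simp only [hS, Finset.mem_filter, Finset.mem_Ico] at hj hmem
    by_contra hlt
    have h1 : 2 ^ r * 2 ^ (r * (S.min' h + 1)) ≤ 2 ^ (r * (j - 1)) := by
      rw [← pow_add, show r + r * (S.min' h + 1) = r * (S.min' h + 2) by ring]
      exact Nat.pow_le_pow_right two_pos (Nat.mul_le_mul_left r (by omega))
    have h2 := Nat.mul_le_mul_left (2 ^ r) hmem.2.2.le
    exact absurd hj.2.1 (not_lt.2 (h2.trans h1))
  exact (Finset.card_le_card hsub).trans (by rw [Nat.card_Icc]; omega)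

open Classical in
/-- A bad scale is explained by some gap. -/
theorem not_near_gap {r M j : ℕ} (hj : j + 1 ≤ M) (T : Finset (Fin (2 ^ (r * M))))
    (h : ¬ Near (2 ^ (r * (j - 1))) (T.image (splitPos r M j hj))) :
    ∃ p' ∈ T.image Fin.val, nextGap (T.image Fin.val) p' < 2 ^ (r * (j + 1)) ∧
      2 ^ (r * (j - 1)) < T.card * nextGap (T.image Fin.val) p' := by
  simp only [Near, Finset.mem_image, forall_exists_index, and_imp, forall_apply_eq_imp_iff₂,
    not_forall, not_or, not_le] at h
  obtain ⟨u, hu, v, hv, he, h1, h2⟩ := h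
  set G := 2 ^ (r * (j + 1)) with hG
  have hfst : ∀ w, ((splitPos r M j hj w).1 : ℕ) = w.val / G := fun w => rfl
  have hsnd : ∀ w, ((splitPos r M j hj w).2 : ℕ) = w.val % G := fun w => rfl
  have hdiv : u.val / G = v.val / G := by rw [← hfst, ← hfst, he]
  rw [hsnd, hsnd] at h1 h2
  have hG0 : 0 < G := pow_pos two_pos _
  have hu' := Nat.div_add_mod u.val G
  have hv' := Nat.div_add_mod v.val G
  rw [hdiv] at hu'
  have hum := Nat.mod_lt u.val hG0
  have hvm := Nat.mod_lt v.val hG0
  have hcard : (T.image Fin.val).card = T.card :=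
    Finset.card_image_of_injective _ Fin.val_injective
  have hmu : u.val ∈ T.image Fin.val := Finset.mem_image_of_mem _ hu
  have hmv : v.val ∈ T.image Fin.val := Finset.mem_image_of_mem _ hv
  rcases lt_trichotomy (u.val % G) (v.val % G) with hlt | heq | hgt
  · rw [show v.val % G + G - u.val % G = G + (v.val % G - u.val % G) by omega,
      Nat.add_mod_left, Nat.mod_eq_of_lt (by omega)] at h2
    obtain ⟨p', hp', ha, hb⟩ := exists_gap _ hmu hmv (show u.val < v.val by omega)
    rw [hcard] at hb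
    exact ⟨p', hp', by omega, by omega⟩
  · rw [heq, Nat.add_sub_cancel_left, Nat.mod_self] at h1
    exact absurd h1 (Nat.not_lt_zero _)
  · rw [show u.val % G + G - v.val % G = G + (u.val % G - v.val % G) by omega,
      Nat.add_mod_left, Nat.mod_eq_of_lt (by omega)] at h1
    obtain ⟨p', hp', ha, hb⟩ := exists_gap _ hmv hmu (show v.val < u.val by omega)
    rw [hcard] at hb
    exact ⟨p', hp', by omega, by omega⟩

theorem sum_scaleBad_le {r M : ℕ} (hr : 2 ≤ r) (hMR : M ≤ 2 ^ r)
    (T : Finset (Fin (2 ^ (r * M)))) :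
    ∑ j ∈ Finset.Ico 1 M, scaleBad r M j T ≤ 10 * (T.card : ℝ) := by
  classical
  set T' := T.image Fin.val with hT'
  set S : ℕ → Finset ℕ := fun p => (Finset.Ico 1 M).filter fun j =>
    2 ^ (r * (j - 1)) < 2 ^ r * nextGap T' p ∧ nextGap T' p < 2 ^ (r * (j + 1))
  have ht0 : (0 : ℝ) ≤ T.card := Nat.cast_nonneg _
  have hterm : ∀ j ∈ Finset.Ico 1 M, scaleBad r M j T ≤
      2 * (T.card : ℝ) / (2 : ℝ) ^ r +
        (if j ∈ T'.biUnion S ∨ 2 ^ r ≤ T.card then (1 : ℝ) else 0) := by
    intro j hj
    rw [Finset.mem_Ico] at hj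
    have hjM : j + 1 ≤ M := hj.2
    have h0 : (0 : ℝ) ≤ 2 * (T.card : ℝ) / (2 : ℝ) ^ r := by positivity
    rw [scaleBad, dif_pos hjM, badBound]
    by_cases hN : Near (2 ^ (r * (j - 1))) (T.image (splitPos r M j hjM))
    · rw [if_pos hN]
      refine le_add_of_le_of_nonneg ((min_le_right _ _).trans (le_of_eq ?_))
        (by split_ifs <;> norm_num)
      rw [Finset.card_image_of_injective _ (Equiv.injective _)]
      push_cast
      obtain ⟨i, rfl⟩ : ∃ i, j = i + 1 := ⟨j - 1, by omega⟩
      have e : r * (i + 1) - 1 + 1 = r + r * i := by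
        have h2 : r * (i + 1) = r + r * i := by ring
        omega
      have e2 : (2 : ℝ) ^ (r * (i + 1) - 1) * 2 = (2 : ℝ) ^ r * (2 : ℝ) ^ (r * i) := by
        rw [← pow_succ, e, pow_add]
      rw [Nat.add_sub_cancel, div_eq_div_iff (by positivity) (by positivity)]
      linear_combination (-(T.card : ℝ)) * e2
    · rw [if_neg hN]
      have hin : j ∈ T'.biUnion S ∨ 2 ^ r ≤ T.card := by
        rcases Nat.lt_or_ge T.card (2 ^ r) with hlt | hge
        · obtain ⟨p', hp', ha, hb⟩ := not_near_gap hjM T hN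
          refine Or.inl (Finset.mem_biUnion.2 ⟨p', hp', ?_⟩)
          simp only [S, Finset.mem_filter, Finset.mem_Ico]
          exact ⟨hj, hb.trans_le (Nat.mul_le_mul_right _ hlt.le), ha⟩
        · exact Or.inr hge
      rw [if_pos hin]
      linarith
  refine (Finset.sum_le_sum hterm).trans ?_
  rw [Finset.sum_add_distrib, Finset.sum_const, Nat.card_Ico, nsmul_eq_mul, Finset.sum_boole]
  have hR : (0 : ℝ) < (2 : ℝ) ^ r := by positivity
  have hM : ((M - 1 : ℕ) : ℝ) ≤ (2 : ℝ) ^ r := by
    exact_mod_cast le_trans (Nat.sub_le M 1) hMR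
  have h1 : ((M - 1 : ℕ) : ℝ) * (2 * (T.card : ℝ) / (2 : ℝ) ^ r) ≤ 2 * T.card := by
    refine (mul_le_mul_of_nonneg_right hM (by positivity)).trans_eq ?_
    field_simp
  have h2 : ((Finset.Ico 1 M).filter fun j => j ∈ T'.biUnion S ∨ 2 ^ r ≤ T.card).card
      ≤ 3 * T.card := by
    rcases Nat.lt_or_ge T.card (2 ^ r) with hlt | hge
    · refine le_trans (Finset.card_le_card fun j hj => ?_)
        ((Finset.card_biUnion_le_card_mul T' S 3 fun p _ =>
          card_scales_le (by omega) M (nextGap T' p)).trans ?_)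
      · exact (Finset.mem_filter.1 hj).2.resolve_right (not_le.2 hlt)
      · rw [hT', Finset.card_image_of_injective _ Fin.val_injective, mul_comm]
    · refine (Finset.card_filter_le _ _).trans ?_
      rw [Nat.card_Ico]
      omega
  have h3 : (((Finset.Ico 1 M).filter fun j => j ∈ T'.biUnion S ∨ 2 ^ r ≤ T.card).card : ℝ)
      ≤ 3 * T.card := by exact_mod_cast h2
  linarith

end Vale.Agent.P238
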