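import Vale.Agent.P238.Blocks
import Vale.Agent.P238.Inner
import Vale.Agent.P238.Outer
import Vale.Agent.P238.Scales
import Vale.Agent.P238.ScaleMetric

/-!
# P238: the inequality for one cut
-/

namespace Vale.Agent.P238

open Finset

/-- Block count, also the number of bits in a block. -/
abbrev bigP (r M : ℕ) : ℕ := 2 ^ (r * M)

/-- Bit indices. -/
abbrev Idx (r M : ℕ) : Type := Fin (bigP r M) × Fin (bigP r M)

/-- Number of intervals at scale `i + 1`. -/
abbrev numI (r M : ℕ) (i : Fin (M - 1)) : ℕ := 2 ^ (r * (M - (i.val + 1 + 1)))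

/-- Interval length at scale `i + 1`. -/
abbrev lenI (r M : ℕ) (i : Fin (M - 1)) : ℕ := 2 ^ (r * (i.val + 1 + 1))

/-- Half window at scale `i + 1`. -/
abbrev halfW (r M : ℕ) (i : Fin (M - 1)) : ℕ := 2 ^ (r * (i.val + 1) - 1)

/-- Coordinates adapted to scale `i + 1`. -/
def scaleEquiv (r M : ℕ) (i : Fin (M - 1)) :
    Idx r M ≃ (Fin (numI r M i) × Fin (lenI r M i)) × Fin (bigP r M) :=
  (splitPos r M (i.val + 1) (by have := i.isLt; omega)).prodCongr (Equiv.refl _)

theorem two_halfW {r M : ℕ} (hr : 1 ≤ r) (i : Fin (M - 1)) :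
    2 * halfW r M i = 2 ^ (r * (i.val + 1)) := by
  have : 1 ≤ r * (i.val + 1) := Nat.mul_pos hr (Nat.succ_pos _)
  unfold halfW
  rw [← pow_succ']
  congr 1
  omega

theorem lenI_eq {r M : ℕ} (hr : 1 ≤ r) (i : Fin (M - 1)) :
    lenI r M i = 2 * halfW r M i * 2 ^ r := by
  rw [two_halfW hr, ← pow_add]
  congr 1

theorem halfW_dvd {r M : ℕ} (hr : 1 ≤ r) (i : Fin (M - 1)) : 2 * halfW r M i ∣ lenI r M i :=
  Dvd.intro _ (lenI_eq hr i).symm

/-- The swap move at scale `i + 1`. -/
def piBits {r M : ℕ} (hr : 1 ≤ r) (i : Fin (M - 1))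
    (phi : Fin (numI r M i) → Fin (2 * halfW r M i)) : Equiv.Perm (Idx r M) :=
  bitPerm (scaleEquiv r M i).symm (piPerm Nat.one_le_two_pow (halfW_dvd hr i) phi)

/-- The rotation move at scale `i + 1`. -/
def sigBits {r M : ℕ} (i : Fin (M - 1)) (eps : Fin (numI r M i) → Bool) :
    Equiv.Perm (Idx r M) :=
  bitPerm (scaleEquiv r M i).symm (sigPerm (halfW r M i) eps)

theorem sum_bitPerm {Q β ι : Type*} [Fintype Q] [DecidableEq Q] [Fintype β] [DecidableEq β]
    [Fintype ι] [DecidableEq ι] (E : Q × β ≃ ι) (π : Equiv.Perm Q) (w : Finset ι → ℝ) :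
    ∑ S, (w S - w (S.image (bitPerm E π))) ^ 2 =
      ∑ S : Finset (Q × β), (w (S.image E) - w ((S.image (liftFun π)).image E)) ^ 2 := by
  refine (Fintype.sum_equiv (E.finsetCongr) _ _ fun S => ?_).symm
  simp only [Equiv.finsetCongr_apply, map_eq_image, Equiv.coe_toEmbedding, image_image]
  congr 3
  refine image_congr fun q _ => ?_
  obtain ⟨q, k⟩ := q
  simp [bitPerm_apply, liftFun, Function.comp_def]

theorem sum_touched_card {P β : Type*} [Fintype P] [DecidableEq P] [Fintype β] [DecidableEq β]
    (w : Finset (P × β) → ℝ) :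
    ∑ S, w S * ((touched S).card : ℝ) =
      ∑ b, ∑ S ∈ univ.filter (fun S : Finset (P × β) => b ∈ touched S), w S := by
  have : ∀ S : Finset (P × β),
      w S * ((touched S).card : ℝ) = ∑ b, if b ∈ touched S then w S else 0 := by
    intro S
    rw [sum_ite_mem, univ_inter, sum_const, nsmul_eq_mul]
    ring
  simp only [this]
  rw [sum_comm]
  refine sum_congr rfl fun b _ => ?_
  rw [sum_filter]

theorem block_weight {P : Type*} [Fintype P] [DecidableEq P] {m K d : ℕ} [NeZero m] (hK : K ≤ m)
    (hd : 1 ≤ d) (hKd : (3 ^ d * d) ^ 4 ≤ K) (f : (P × Fin m → Bool) → Bool) (b : P) :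
    ∑ S ∈ univ.filter (fun S : Finset (P × Fin m) => b ∈ touched S),
        coeff (fun x => bv (f x)) S ^ 2 ≤
      2 / d * ∑ k, dis f (flipBit (b, k)) +
      2 / Real.sqrt K * ∑ t ∈ range K, dis f (blockMap b (rotBits t)) := by
  rw [sum_touched_eq b (fun x => bv (f x))]
  have hmono := avg_mono (ι := P × Fin m)
    (f := fun x => wvar fun u : Fin m → Bool => bv (f (setBlock b x u)))
    (fun x : P × Fin m → Bool => inner_kkl hK hd hKd fun u => f (setBlock b x u))
  refine le_trans hmono (le_of_eq ?_)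
  have hflip : ∀ k : Fin m, flipBit (b, k) = blockMap b (flipBit k) := fun k =>
    funext fun z => (blockMap_flip b k z).symm
  simp only [hflip, ← avg_dis_block]
  simp only [avg, sum_add_distrib, add_div, ← mul_sum, sum_comm (s := univ) (t := range K)]
  rw [sum_comm]
  simp only [← sum_div, mul_div_assoc]

open Classical in
theorem bool_ineq {r M K d : ℕ} (hr : 2 ≤ r) (hMR : M ≤ 2 ^ r) (hK : K ≤ bigP r M) (hd : 1 ≤ d)
    (hKd : (3 ^ d * d) ^ 4 ≤ K) (f : (Idx r M → Bool) → Bool) :
    (∑ i : Fin (M - 1), (∑ phi : Fin (numI r M i) → Fin (2 * halfW r M i),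
        dis f (fun x p => x (piBits (by omega : 1 ≤ r) i phi p)))
          / ((2 * halfW r M i : ℕ) : ℝ) ^ numI r M i) ≤
    (∑ i : Fin (M - 1), (∑ eps : Fin (numI r M i) → Bool,
        dis f (fun x p => x (sigBits i eps p))) / 2 ^ numI r M i)
    + 40 * ∑ b : Fin (bigP r M), (2 / d * ∑ k, dis f (flipBit (b, k)) +
        2 / Real.sqrt K * ∑ t ∈ range K, dis f (blockMap b (rotBits t))) := by
  set w : Finset (Idx r M) → ℝ := coeff (fun x => bv (f x)) with hw
  have hr1 : 1 ≤ r := by omega
  have hscale : ∀ i : Fin (M - 1),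
      (∑ phi : Fin (numI r M i) → Fin (2 * halfW r M i),
        dis f (fun x p => x (piBits hr1 i phi p))) / ((2 * halfW r M i : ℕ) : ℝ) ^ numI r M i ≤
      (∑ eps : Fin (numI r M i) → Bool,
        dis f (fun x p => x (sigBits i eps p))) / 2 ^ numI r M i
      + 4 * ∑ S, w S ^ 2 * scaleBad r M (i.val + 1) (touched S) := by
    intro i
    set E := (scaleEquiv r M i).symm with hE
    have hlo : 2 * 2 ^ (r * (i.val + 1 - 1)) ≤ 2 * halfW r M i := by
      refine Nat.mul_le_mul_left 2 (Nat.pow_le_pow_right (by norm_num) ?_)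
      rw [Nat.add_sub_cancel, Nat.mul_succ]
      omega
    have h1 := one_scale (A := numI r M i) (G := lenI r M i) (β := Fin (bigP r M))
      Nat.one_le_two_pow (halfW_dvd hr1 i) hlo (fun S : Finset ((Fin (numI r M i) × Fin (lenI r M i)) × Fin (bigP r M)) => w (S.image E))
    have hpi : ∀ phi, dis f (fun x p => x (piBits hr1 i phi p)) =
        ∑ S : Finset ((Fin (numI r M i) × Fin (lenI r M i)) × Fin (bigP r M)), (w (S.image E) - w ((S.image (liftFun (piFun (halfW r M i) phi))).image E)) ^ 2 := by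
      intro phi
      have hsymm : (piBits hr1 i phi).symm = piBits hr1 i phi := by
        ext1 p
        rw [Equiv.symm_apply_eq]
        obtain ⟨⟨q, k⟩, rfl⟩ := (scaleEquiv r M i).symm.surjective p
        simp only [piBits, bitPerm_apply]
        congr 2
        exact (piFun_involutive Nat.one_le_two_pow (halfW_dvd hr1 i) phi q).symm
      rw [dis_perm, hsymm]
      exact sum_bitPerm E _ w
    have hsig : ∀ eps, dis f (fun x p => x (sigBits i eps p)) =
        ∑ S : Finset ((Fin (numI r M i) × Fin (lenI r M i)) × Fin (bigP r M)), (w (S.image E) -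
          w ((S.image (liftFun (sigFun (halfW r M i) fun a => !eps a))).image E)) ^ 2 := by
      intro eps
      have hsymm : (sigBits i eps).symm = bitPerm E (sigPerm (halfW r M i) eps).symm := by
        ext1 p
        rw [Equiv.symm_apply_eq]
        obtain ⟨⟨q, k⟩, rfl⟩ := (scaleEquiv r M i).symm.surjective p
        simp only [sigBits, hE, bitPerm_apply, Equiv.apply_symm_apply]
      rw [dis_perm, hsymm]
      exact sum_bitPerm E _ w
    have hneg : ∑ eps : Fin (numI r M i) → Bool, dis f (fun x p => x (sigBits i eps p)) =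
        ∑ eps : Fin (numI r M i) → Bool,
          ∑ S : Finset ((Fin (numI r M i) × Fin (lenI r M i)) × Fin (bigP r M)), (w (S.image E) - w ((S.image (liftFun (sigFun (halfW r M i) eps))).image E)) ^ 2 := by
      simp only [hsig]
      have hinv : Function.Involutive
          (fun eps : Fin (numI r M i) → Bool => fun a => !eps a) := fun e => by
        funext a; simp
      exact Fintype.sum_bijective _ hinv.bijective _ _ fun _ => rfl
    rw [hneg]
    simp only [hpi]
    refine h1.trans (le_of_eq ?_)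
    congr 2
    refine Fintype.sum_equiv (E.finsetCongr) _ _ fun S => ?_
    simp only [Equiv.finsetCongr_apply, map_eq_image, Equiv.coe_toEmbedding]
    congr 1
    unfold scaleBad
    have hj : i.val + 1 + 1 ≤ M := by have := i.isLt; omega
    rw [dif_pos hj]
    congr 1
    unfold touched
    rw [image_image, image_image]
    refine image_congr fun q _ => ?_
    obtain ⟨q, k⟩ := q
    simp [hE, scaleEquiv]
  refine (sum_le_sum fun i _ => hscale i).trans ?_
  rw [sum_add_distrib, ← mul_sum]
  refine add_le_add le_rfl ?_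
  rw [sum_comm]
  simp only [← mul_sum]
  have hsumj : ∀ S : Finset (Idx r M),
      ∑ i : Fin (M - 1), scaleBad r M (i.val + 1) (touched S) ≤ 10 * ((touched S).card : ℝ) := by
    intro S
    refine le_trans (le_of_eq ?_) (sum_scaleBad_le hr hMR (touched S))
    rw [sum_Ico_eq_sum_range, ← Fin.sum_univ_eq_sum_range
      (fun k => scaleBad r M (1 + k) (touched S))]
    simp [Nat.add_comm]
  calc 4 * ∑ S, w S ^ 2 * ∑ i : Fin (M - 1), scaleBad r M (i.val + 1) (touched S)
      ≤ 4 * ∑ S, w S ^ 2 * (10 * ((touched S).card : ℝ)) := by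
        gcongr with S
        exact hsumj S
    _ = 40 * ∑ S, w S ^ 2 * ((touched S).card : ℝ) := by
        rw [mul_sum, mul_sum]
        refine sum_congr rfl fun S _ => ?_
        ring
    _ ≤ _ := by
        rw [sum_touched_card]
        gcongr with b
        exact block_weight hK hd hKd f b

end Vale.Agent.P238
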