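import Vale.Agent.P238.CubeDefs

/-!
# P238: Walsh analysis on the cube
-/

namespace Vale.Agent.P238

open Finset

variable {ι : Type*} [Fintype ι] [DecidableEq ι]

theorem chi_sq (S : Finset ι) (x : ι → Bool) : chi S x * chi S x = 1 := by
  unfold chi
  rw [← prod_mul_distrib]
  refine prod_eq_one fun i _ => ?_
  cases x i <;> simp

/-- Sum of characters over all sets. -/
theorem sum_chi_mul (x y : ι → Bool) :
    ∑ S : Finset ι, chi S x * chi S y = if x = y then (2 : ℝ) ^ Fintype.card ι else 0 := by
  have h : ∑ S : Finset ι, chi S x * chi S y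
      = ∏ i : ι, ((1 : ℝ) + (if x i then -1 else 1) * (if y i then -1 else 1)) := by
    rw [prod_one_add, powerset_univ]
    refine sum_congr rfl fun S _ => ?_
    simp only [chi, ← prod_mul_distrib]
  rw [h]
  by_cases hxy : x = y
  · subst hxy
    simp only [if_true]
    rw [← Finset.card_univ, ← prod_const]
    refine prod_congr rfl fun i _ => ?_
    cases x i <;> norm_num
  · rw [if_neg hxy]
    obtain ⟨i, hi⟩ := Function.ne_iff.mp hxy
    refine prod_eq_zero (mem_univ i) ?_
    revert hi
    cases x i <;> cases y i <;> simp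

theorem parseval (f : (ι → Bool) → ℝ) : ∑ S, coeff f S ^ 2 = avg fun x => f x ^ 2 := by
  have hN : (2 : ℝ) ^ Fintype.card ι ≠ 0 := by positivity
  calc ∑ S, coeff f S ^ 2
      = (∑ S : Finset ι, ∑ x, ∑ y, (f x * f y) * (chi S x * chi S y))
          / ((2 : ℝ) ^ Fintype.card ι) ^ 2 := by
        rw [sum_div]
        refine sum_congr rfl fun S _ => ?_
        simp only [coeff, avg, div_pow]
        rw [sq (∑ x, f x * chi S x), sum_mul_sum]
        congr 1
        refine sum_congr rfl fun x _ => sum_congr rfl fun y _ => ?_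
        ring
    _ = (∑ x, ∑ y, (f x * f y) * ∑ S : Finset ι, chi S x * chi S y)
          / ((2 : ℝ) ^ Fintype.card ι) ^ 2 := by
        congr 1
        rw [sum_comm]
        refine sum_congr rfl fun x _ => ?_
        rw [sum_comm]
        simp only [mul_sum]
    _ = avg fun x => f x ^ 2 := by
        simp only [sum_chi_mul, mul_ite, mul_zero, sum_ite_eq, mem_univ, if_true]
        rw [← sum_mul, avg]
        field_simp
        <;> simp [sq]

/-- Composition with a coordinate permutation. -/
theorem avg_comp_equiv (T : (ι → Bool) ≃ (ι → Bool)) (g : (ι → Bool) → ℝ) :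
    avg (fun x => g (T x)) = avg g := by
  unfold avg
  rw [Equiv.sum_comp T g]

theorem chi_image (π : Equiv.Perm ι) (S : Finset ι) (x : ι → Bool) :
    chi (S.image π) x = chi S (fun i => x (π i)) := by
  unfold chi
  rw [prod_image]
  exact fun a _ b _ hab => π.injective hab

theorem coeff_perm (f : (ι → Bool) → ℝ) (π : Equiv.Perm ι) (S : Finset ι) :
    coeff (fun x => f (fun i => x (π i))) S = coeff f (S.image π.symm) := by
  unfold coeff
  have h : ∀ x : ι → Bool,
      f (fun i => x (π i)) * chi S x
        = (fun y => f y * chi (S.image π.symm) y) ((Equiv.arrowCongr π.symm (Equiv.refl Bool)) x) := by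
    intro x
    simp only [chi_image, Equiv.arrowCongr_apply, Equiv.refl_apply, Function.comp_def,
      Equiv.symm_symm]
    congr 1
    simp
  simp only [h]
  exact avg_comp_equiv _ (fun y => f y * chi (S.image π.symm) y)

theorem avg_mono {f g : (ι → Bool) → ℝ} (h : ∀ x, f x ≤ g x) : avg f ≤ avg g := by
  unfold avg
  gcongr with x
  exact h x

theorem abs_bv_sub_sq (a b : Bool) : (bv a - bv b) ^ 2 = |bv a - bv b| := by
  cases a <;> cases b <;> simp [bv]

theorem coeff_sub (f g : (ι → Bool) → ℝ) (S : Finset ι) :
    coeff (fun x => f x - g x) S = coeff f S - coeff g S := by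
  unfold coeff avg
  rw [← sub_div, ← sum_sub_distrib]
  simp only [sub_mul]

/-- The probability of change under a coordinate permutation, in Walsh coefficients. -/
theorem dis_perm (f : (ι → Bool) → Bool) (π : Equiv.Perm ι) :
    dis f (fun x i => x (π i)) =
      ∑ S, (coeff (fun x => bv (f x)) S - coeff (fun x => bv (f x)) (S.image π.symm)) ^ 2 := by
  have h := parseval (fun x => bv (f x) - bv (f (fun i => x (π i))))
  simp only [abs_bv_sub_sq] at h
  unfold dis
  rw [← h]
  refine sum_congr rfl fun S _ => ?_
  rw [coeff_sub]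
  rw [← coeff_perm (fun x => bv (f x)) π S]

theorem dis_nonneg (f : (ι → Bool) → Bool) (T : (ι → Bool) → ι → Bool) : 0 ≤ dis f T := by
  unfold dis avg
  positivity

end Vale.Agent.P238
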