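import Mathlib

/-!
# P238: basic notions on the discrete cube
-/

namespace Vale.Agent.P238

open Finset

variable {ι : Type*} [Fintype ι] [DecidableEq ι]

/-- Uniform average over the cube. -/
noncomputable def avg (f : (ι → Bool) → ℝ) : ℝ := (∑ x, f x) / 2 ^ Fintype.card ι

/-- Real value of a Boolean. -/
def bv (b : Bool) : ℝ := if b then 1 else 0

/-- Probability that `T` changes the value of `f`. -/
noncomputable def dis (f : (ι → Bool) → Bool) (T : (ι → Bool) → ι → Bool) : ℝ :=
  avg fun x => |bv (f x) - bv (f (T x))|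

/-- Flip one bit. -/
def flipBit (i : ι) (x : ι → Bool) : ι → Bool := Function.update x i (!x i)

/-- Walsh character. -/
def chi (S : Finset ι) (x : ι → Bool) : ℝ := ∏ i ∈ S, if x i then -1 else 1

/-- Walsh coefficient. -/
noncomputable def coeff (f : (ι → Bool) → ℝ) (S : Finset ι) : ℝ := avg fun x => f x * chi S x

/-- Total weight of the nonempty Walsh coefficients. -/
noncomputable def wvar (f : (ι → Bool) → ℝ) : ℝ :=
  ∑ S ∈ Finset.univ.filter (fun S : Finset ι => S.Nonempty), coeff f S ^ 2

/-- Cyclic rotation of the word by `t`. -/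
def rotBits {m : ℕ} [NeZero m] (t : ℕ) (x : Fin m → Bool) : Fin m → Bool :=
  fun i => x (i + Fin.ofNat m t)

end Vale.Agent.P238
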