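import Vale.Agent.P238.CubeDefs

/-!
# P238: inequalities on cuts extend to real functions and to `ℓ¹`
-/

namespace Vale.Agent.P238

open Finset

theorem cuts_real {X τ : Type*} [Fintype X] [Fintype τ] (c : τ → ℝ) (T : τ → X → X)
    (h : ∀ f : X → Bool, 0 ≤ ∑ k, c k * ∑ x, |bv (f x) - bv (f (T k x))|) (g : X → ℝ) :
    0 ≤ ∑ k, c k * ∑ x, |g x - g (T k x)| := by
  classical
  induction hn : (univ.image g).card using Nat.strong_induction_on generalizing g with
  | _ n ih =>
    by_cases hc : ∀ x y, g x = g y
    · refine le_of_eq (Eq.symm (sum_eq_zero fun k _ => ?_))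
      rw [sum_eq_zero (fun x _ => by rw [hc x (T k x), sub_self, abs_zero]), mul_zero]
    push Not at hc
    obtain ⟨x0, y0, hxy⟩ := hc
    set s := univ.image g with hs
    have hne : s.Nonempty := ⟨g x0, mem_image_of_mem g (mem_univ _)⟩
    set v := s.max' hne with hv
    have hne2 : (s.erase v).Nonempty := by
      by_cases h1 : g x0 = v
      · exact ⟨g y0, mem_erase.mpr ⟨fun e => hxy (h1.trans e.symm), mem_image_of_mem g (mem_univ _)⟩⟩
      · exact ⟨g x0, mem_erase.mpr ⟨h1, mem_image_of_mem g (mem_univ _)⟩⟩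
    set u := (s.erase v).max' hne2 with hu
    have hu' : u ∈ s.erase v := max'_mem _ _
    have huv : u < v :=
      lt_of_le_of_ne (le_max' _ _ (mem_erase.mp hu').2) (mem_erase.mp hu').1
    have hle : ∀ x, g x ≠ v → g x ≤ u := fun x hx =>
      le_max' _ _ (mem_erase.mpr ⟨hx, mem_image_of_mem g (mem_univ _)⟩)
    let g' : X → ℝ := fun x => if g x = v then u else g x
    let f : X → Bool := fun x => decide (g x = v)
    have hsplit : ∀ x y, |g x - g y| = |g' x - g' y| + (v - u) * |bv (f x) - bv (f y)| := by
      intro x y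
      by_cases hx : g x = v <;> by_cases hy : g y = v
      · simp [g', f, hx, hy]
      · have := hle y hy
        simp only [g', f, hx, hy, bv, if_true, if_false, decide_true, decide_false,
          Bool.false_eq_true, sub_zero, abs_one, mul_one]
        rw [abs_of_nonneg (by linarith), abs_of_nonneg (by linarith)]
        ring
      · have := hle x hx
        simp only [g', f, hx, hy, bv, if_true, if_false, decide_true, decide_false,
          Bool.false_eq_true, zero_sub, abs_neg, abs_one, mul_one]
        rw [abs_of_nonpos (by linarith), abs_of_nonpos (by linarith)]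
        ring
      · simp [g', f, hx, hy]
    have hsub : univ.image g' ⊆ s.erase v := by
      intro z hz
      obtain ⟨x, -, rfl⟩ := mem_image.mp hz
      by_cases hx : g x = v
      · simpa [g', hx] using hu'
      · simp [g', hx, hs]
    have hlt : (univ.image g').card < n := by
      rw [← hn]
      exact lt_of_le_of_lt (card_le_card hsub) (card_erase_lt_of_mem (max'_mem _ _))
    have h1 := ih _ hlt g' rfl
    have h2 := h f
    have h3 : ∑ k, c k * ∑ x, |g x - g (T k x)| = (∑ k, c k * ∑ x, |g' x - g' (T k x)|)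
        + (v - u) * ∑ k, c k * ∑ x, |bv (f x) - bv (f (T k x))| := by
      simp only [hsplit, sum_add_distrib, ← mul_sum, mul_add, mul_left_comm _ (v - u)]
    rw [h3]
    exact add_nonneg h1 (mul_nonneg (by linarith) h2)

theorem cuts_lp {X τ : Type*} [Fintype X] [Fintype τ] (c : τ → ℝ) (T : τ → X → X)
    (h : ∀ f : X → Bool, 0 ≤ ∑ k, c k * ∑ x, |bv (f x) - bv (f (T k x))|)
    (F : X → lp (fun _ : ℕ => ℝ) 1) :
    0 ≤ ∑ k, c k * ∑ x, ‖F x - F (T k x)‖ := by
  have hsum : ∀ x y, HasSum (fun i : ℕ => |(F x) i - (F y) i|) ‖F x - F y‖ := by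
    intro x y
    have := lp.hasSum_norm (p := (1 : ENNReal)) (by norm_num) (F x - F y)
    simpa [Real.norm_eq_abs] using this
  have htot : HasSum (fun i : ℕ => ∑ k, c k * ∑ x, |(F x) i - (F (T k x)) i|)
      (∑ k, c k * ∑ x, ‖F x - F (T k x)‖) :=
    hasSum_sum fun k _ => (hasSum_sum fun x _ => hsum x (T k x)).mul_left (c k)
  exact htot.nonneg fun i => cuts_real c T h (fun x => (F x) i)

end Vale.Agent.P238
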