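import Mathlib

/-!
# P238: edit distance and its distortion into the real space of absolutely summable sequences
-/

namespace Vale.Agent.P238

/-- One insertion, deletion or substitution of a single symbol. -/
def Edit1 (x y : List Bool) : Prop :=
  ∃ u v : List Bool,
    (∃ a, x = u ++ v ∧ y = u ++ a :: v) ∨
    (∃ a, x = u ++ a :: v ∧ y = u ++ v) ∨
    (∃ a b, x = u ++ a :: v ∧ y = u ++ b :: v)

/-- `EditPath k x y`: `k` single-symbol operations turn `x` into `y`. -/
def EditPath : ℕ → List Bool → List Bool → Prop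
  | 0, x, y => x = y
  | k + 1, x, y => ∃ z, Edit1 x z ∧ EditPath k z y

/-- Edit distance of two binary words. -/
noncomputable def ED (x y : List Bool) : ℕ := sInf {k | EditPath k x y}

/-- Edit distance on the words of length `n`. -/
noncomputable def EDn {n : ℕ} (x y : Fin n → Bool) : ℕ := ED (List.ofFn x) (List.ofFn y)

/-- The words of length `n` under edit distance embed into `ℓ¹` with distortion `D`. -/
def Embeds (n : ℕ) (D : ℝ) : Prop :=
  ∃ (F : (Fin n → Bool) → lp (fun _ : ℕ => ℝ) 1) (a : ℝ), 0 < a ∧
    ∀ x y, a * (EDn x y : ℝ) ≤ ‖F x - F y‖ ∧ ‖F x - F y‖ ≤ a * D * (EDn x y : ℝ)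

/-- The least `ℓ¹` distortion of the words of length `n` under edit distance. -/
noncomputable def c1ED (n : ℕ) : ℝ := sInf {D : ℝ | Embeds n D}

end Vale.Agent.P238
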