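import Mathlib

/-!
# P238 module F: a random word is far from a locally swapped copy of itself

A long common subsequence is a pair of increasing maps. It agrees with `π` at most once in every
inverted pair, so it imposes many equations `x u = x v` with `u < v`; each such equation halves
the number of words, and there are few pairs of increasing maps.
-/

namespace Vale.Agent.P238

/-- The two words share a common subsequence missing at most `e` symbols. -/
def Common {n : ℕ} (e : ℕ) (x y : Fin n → Bool) : Prop :=
  ∃ l : List Bool, l.Sublist (List.ofFn x) ∧ l.Sublist (List.ofFn y) ∧ n ≤ l.length + e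

open Classical in
/-- Equations `x u = x (φ u)` with `u < φ u` are independent. -/
theorem card_solutions_le {n : ℕ} (D : Finset (Fin n)) (φ : Fin n → Fin n)
    (hφ : ∀ u ∈ D, u < φ u) :
    (Finset.univ.filter fun x : Fin n → Bool => ∀ u ∈ D, x u = x (φ u)).card
      ≤ 2 ^ (n - D.card) := by
  have hcard : Fintype.card ({u // u ∈ Dᶜ} → Bool) = 2 ^ (n - D.card) := by
    simp
  rw [← hcard]
  refine Finset.card_le_card_of_injOn (t := Finset.univ)
    (fun x (u : {u // u ∈ Dᶜ}) => x u.1) (fun _ _ => Finset.mem_univ _) ?_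
  intro x hx y hy heq
  simp only [Finset.coe_filter, Finset.mem_univ, true_and, Set.mem_ofPred_eq] at hx hy
  have key : ∀ d : ℕ, ∀ u : Fin n, n - u.val = d → x u = y u := by
    intro d
    induction d using Nat.strong_induction_on with
    | _ d ih =>
      intro u hu
      by_cases hD : u ∈ D
      · have hlt : u.val < (φ u).val := hφ u hD
        have := (φ u).isLt
        rw [hx u hD, hy u hD]
        exact ih (n - (φ u).val) (by omega) (φ u) rfl
      · exact congrFun heq ⟨u, Finset.mem_compl.2 hD⟩
  funext u
  exact key _ u rfl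

/-- A long common subsequence gives two increasing maps. -/
theorem exists_maps {n e : ℕ} {x y : Fin n → Bool} (h : Common e x y) :
    ∃ f g : Fin (n - e) → Fin n, StrictMono f ∧ StrictMono g ∧ ∀ t, x (g t) = y (f t) := by
  obtain ⟨l, hx, hy, hlen⟩ := h
  obtain ⟨gx, hgx⟩ := List.sublist_iff_exists_fin_orderEmbedding_get_eq.1 hx
  obtain ⟨gy, hgy⟩ := List.sublist_iff_exists_fin_orderEmbedding_get_eq.1 hy
  have hle : n - e ≤ l.length := by omega
  refine ⟨fun t => (gy (Fin.castLE hle t)).cast (by simp),
    fun t => (gx (Fin.castLE hle t)).cast (by simp), ?_, ?_, fun t => ?_⟩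
  · intro a b hab
    have := gy.strictMono (Fin.strictMono_castLE hle hab)
    exact this
  · intro a b hab
    have := gx.strictMono (Fin.strictMono_castLE hle hab)
    exact this
  · have h1 := hgx (Fin.castLE hle t)
    have h2 := hgy (Fin.castLE hle t)
    simp only [List.get_ofFn] at h1 h2
    exact h1.symm.trans h2

/-- An alignment agrees with `π` at most once in every inverted pair. -/
theorem card_mismatch {n e : ℕ} (π : Equiv.Perm (Fin n))
    (H : Finset (Fin n)) (q : Fin n → Fin n) (hinj : Set.InjOn q H)
    (hlt : ∀ p ∈ H, p < q p) (hinv : ∀ p ∈ H, π (q p) < π p) (hdisj : ∀ p ∈ H, q p ∉ H)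
    {f g : Fin (n - e) → Fin n} (hf : StrictMono f) (hg : StrictMono g) :
    H.card ≤ (Finset.univ.filter fun t => g t ≠ π (f t)).card + e := by
  classical
  set T := Finset.univ.filter fun t => g t ≠ π (f t)
  set Bad : Finset (Fin n) := T.image f ∪ (Finset.univ.image f)ᶜ with hBad
  have hcard : Bad.card ≤ T.card + e := by
    refine (Finset.card_union_le _ _).trans (add_le_add Finset.card_image_le ?_)
    rw [Finset.card_compl, Finset.card_image_of_injective _ hf.injective, Finset.card_univ,
      Fintype.card_fin, Fintype.card_fin]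
    omega
  have hpair : ∀ p ∈ H, p ∈ Bad ∨ q p ∈ Bad := by
    intro p hp
    by_contra hcon
    simp only [not_or, hBad, Finset.mem_union, Finset.mem_compl, not_not, Finset.mem_image,
      Finset.mem_univ, true_and, T, Finset.mem_filter] at hcon
    obtain ⟨⟨hs1, s, hs⟩, ⟨ht1, t, ht⟩⟩ := hcon
    have h1 : g s = π p := by
      by_contra hne
      exact hs1 ⟨s, by rwa [hs], hs⟩
    have h2 : g t = π (q p) := by
      by_contra hne
      exact ht1 ⟨t, by rwa [ht], ht⟩
    have hst : s < t := hf.lt_iff_lt.1 (by rw [hs, ht]; exact hlt p hp)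
    have := hg hst
    rw [h1, h2] at this
    exact lt_asymm this (hinv p hp)
  refine le_trans ?_ hcard
  let c : Fin n → Fin n := fun p => if p ∈ Bad then p else q p
  refine Finset.card_le_card_of_injOn c (fun p hp => ?_) ?_
  · simp only [c]
    split_ifs with h
    · exact h
    · exact (hpair p hp).resolve_left h
  · intro a ha b hb hab
    simp only [c] at hab
    split_ifs at hab with h1 h2 h2
    · exact hab
    · exact absurd (hab ▸ ha) (hdisj b hb)
    · exact absurd (hab.symm ▸ hb) (hdisj a ha)
    · exact hinj ha hb hab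

/-- Words with a given alignment. -/
theorem card_aligned_le {n e : ℕ} (π : Equiv.Perm (Fin n)) {f g : Fin (n - e) → Fin n}
    (hf : StrictMono f) (hg : StrictMono g) (m : ℕ)
    (hm : 2 * m ≤ (Finset.univ.filter fun t => g t ≠ π (f t)).card + 1) :
    (Finset.univ.filter fun x : Fin n → Bool => ∀ t, x (g t) = x (π (f t))).card
      ≤ 2 ^ (n - m) := by
  classical
  set T := Finset.univ.filter fun t => g t ≠ π (f t) with hT
  have hsplit := Finset.card_filter_add_card_filter_not (s := T) fun t => g t < π (f t)
  have main : ∀ (U : Finset (Fin (n - e))) (a b : Fin (n - e) → Fin n), Function.Injective a →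
      (∀ t ∈ U, a t < b t) → m ≤ U.card →
      (Finset.univ.filter fun x : Fin n → Bool => ∀ t, x (a t) = x (b t)).card
        ≤ 2 ^ (n - m) := by
    intro U a b ha hab hU
    let φ : Fin n → Fin n := fun u => if h : ∃ t, a t = u then b h.choose else u
    have hφ : ∀ t, φ (a t) = b t := by
      intro t
      have h : ∃ t', a t' = a t := ⟨t, rfl⟩
      simp only [φ, dif_pos h]
      rw [ha h.choose_spec]
    refine le_trans ?_ (le_trans (card_solutions_le (U.image a) φ fun u hu => ?_) ?_)
    · refine Finset.card_le_card fun x hx => ?_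
      simp only [Finset.mem_filter, Finset.mem_univ, true_and] at hx ⊢
      intro u hu
      obtain ⟨t, -, rfl⟩ := Finset.mem_image.1 hu
      rw [hφ]; exact hx t
    · obtain ⟨t, ht, rfl⟩ := Finset.mem_image.1 hu
      rw [hφ]; exact hab t ht
    · rw [Finset.card_image_of_injective _ ha]
      exact Nat.pow_le_pow_right two_pos (by omega)
  rcases Nat.lt_or_ge (T.filter fun t => g t < π (f t)).card m with h | h
  · have h' := main (T.filter fun t => ¬ g t < π (f t)) (fun t => π (f t)) g
      (π.injective.comp hf.injective) (fun t ht => ?_) (by omega)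
    · simpa [eq_comm] using h'
    · simp only [Finset.mem_filter, hT, Finset.mem_univ, true_and] at ht
      exact lt_of_le_of_ne (not_lt.1 ht.2) (fun h => ht.1 h.symm)
  · exact main (T.filter fun t => g t < π (f t)) g (fun t => π (f t)) hg.injective
      (fun t ht => (Finset.mem_filter.1 ht).2) h

theorem choose_sq_le (n e : ℕ) (he : e ≤ n) :
    n.choose e ^ 2 ≤ 2 ^ (n / 16 + 1 + 12 * e) := by
  have h1 : n.choose e * 64 ^ (n - e) ≤ 65 ^ n := by
    have h := add_pow (64 : ℕ) 1 n
    simp only [one_pow, mul_one] at h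
    rw [show (65 : ℕ) = 64 + 1 from rfl, h]
    refine le_trans ?_ (Finset.single_le_sum (f := fun i => 64 ^ i * n.choose i)
      (fun i _ => Nat.zero_le _) (Finset.mem_range.2 (show n - e < n + 1 by omega)))
    simp only [Nat.choose_symm he]
    rw [mul_comm]
  set u := n / 16 + 1 with hu
  have h65 : (65 : ℕ) ^ 32 ≤ 2 * 64 ^ 32 := by norm_num
  have h2 : (65 : ℕ) ^ (2 * n) ≤ 2 ^ u * 64 ^ (2 * n) := by
    have hle : 2 * n ≤ 32 * u := by omega
    have h3 : (65 : ℕ) ^ (32 * u) ≤ 2 ^ u * 64 ^ (32 * u) := by
      rw [pow_mul, pow_mul, ← mul_pow]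
      exact Nat.pow_le_pow_left h65 u
    obtain ⟨d, hd⟩ := Nat.exists_eq_add_of_le hle
    rw [hd, pow_add (65 : ℕ), pow_add (64 : ℕ), ← mul_assoc] at h3
    refine Nat.le_of_mul_le_mul_right ?_ (pow_pos (show 0 < 64 by norm_num) d)
    exact le_trans (Nat.mul_le_mul_left _ (Nat.pow_le_pow_left (by norm_num) d)) h3
  have h4 : n.choose e ^ 2 * 64 ^ (2 * (n - e)) ≤ 2 ^ u * 64 ^ (2 * n) := by
    refine le_trans ?_ h2
    rw [mul_comm 2 (n - e), mul_comm 2 n, pow_mul, pow_mul, ← mul_pow]
    exact Nat.pow_le_pow_left h1 2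
  have h5 : (64 : ℕ) ^ (2 * n) = 2 ^ (12 * e) * 64 ^ (2 * (n - e)) := by
    rw [show (64 : ℕ) = 2 ^ 6 by norm_num, ← pow_mul, ← pow_mul, ← pow_add]
    congr 1
    omega
  rw [h5, ← mul_assoc, ← pow_add] at h4
  exact Nat.le_of_mul_le_mul_right h4 (pow_pos (by norm_num) _)

open Classical in
/-- If `π` inverts a family of at least `n / 4` disjoint pairs, then at most half of the words
are within `n / 1000` of their permuted copy. -/
theorem far_perm {n : ℕ} (hn : 1000000 ≤ n) (π : Equiv.Perm (Fin n))
    (H : Finset (Fin n)) (q : Fin n → Fin n) (hinj : Set.InjOn q H)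
    (hlt : ∀ p ∈ H, p < q p) (hinv : ∀ p ∈ H, π (q p) < π p)
    (hdisj : ∀ p ∈ H, q p ∉ H) (hH : n ≤ 4 * H.card) :
    2 * (Finset.univ.filter (fun x : Fin n → Bool => Common (n / 1000) x (fun i => x (π i)))).card
      ≤ 2 ^ n := by
  set e := n / 1000 with he
  set m := n / 16 + 1 + 12 * e + 1 with hm
  set P := Finset.univ.powersetCard (n - e) (α := Fin n)
  let bad : Finset (Fin n) × Finset (Fin n) → Finset (Fin n → Bool) := fun AB =>
    Finset.univ.filter fun x => ∃ (hA : AB.1.card = n - e) (hB : AB.2.card = n - e),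
      ∀ t, x (AB.2.orderEmbOfFin hB t) = x (π (AB.1.orderEmbOfFin hA t))
  have hsub : (Finset.univ.filter (fun x : Fin n → Bool => Common e x (fun i => x (π i))))
      ⊆ (P ×ˢ P).biUnion bad := by
    intro x hx
    obtain ⟨f, g, hf, hg, h⟩ := exists_maps (Finset.mem_filter.1 hx).2
    have hA : (Finset.univ.image f).card = n - e := by
      simp [Finset.card_image_of_injective _ hf.injective]
    have hB : (Finset.univ.image g).card = n - e := by
      simp [Finset.card_image_of_injective _ hg.injective]
    refine Finset.mem_biUnion.2 ⟨(Finset.univ.image f, Finset.univ.image g), ?_, ?_⟩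
    · simp [P, Finset.mem_product, Finset.mem_powersetCard, hA, hB]
    · simp only [bad, Finset.mem_filter, Finset.mem_univ, true_and]
      refine ⟨hA, hB, fun t => ?_⟩
      rw [← Finset.orderEmbOfFin_unique hA (fun t => Finset.mem_image_of_mem f (Finset.mem_univ t)) hf,
        ← Finset.orderEmbOfFin_unique hB (fun t => Finset.mem_image_of_mem g (Finset.mem_univ t)) hg]
      exact h t
  have hbad : ∀ AB ∈ P ×ˢ P, (bad AB).card ≤ 2 ^ (n - m) := by
    intro AB hAB
    obtain ⟨hA, hB⟩ := Finset.mem_product.1 hAB
    simp only [P, Finset.mem_powersetCard] at hA hB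
    have hf := (AB.1.orderEmbOfFin hA.2).strictMono
    have hg := (AB.2.orderEmbOfFin hB.2).strictMono
    have hk := card_mismatch π H q hinj hlt hinv hdisj hf hg
    refine le_trans (Finset.card_le_card fun x hx => ?_) (card_aligned_le π hf hg m (by omega))
    simp only [bad, Finset.mem_filter, Finset.mem_univ, true_and] at hx ⊢
    exact hx.2.2
  have hP : (P ×ˢ P).card = n.choose e ^ 2 := by
    rw [Finset.card_product, Finset.card_powersetCard, Finset.card_univ, Fintype.card_fin,
      Nat.choose_symm (by omega), sq]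
  calc 2 * (Finset.univ.filter (fun x : Fin n → Bool => Common e x (fun i => x (π i)))).card
      ≤ 2 * ((P ×ˢ P).card * 2 ^ (n - m)) := by
        refine Nat.mul_le_mul_left 2 ((Finset.card_le_card hsub).trans ?_)
        exact Finset.card_biUnion_le_card_mul _ _ _ hbad
    _ ≤ 2 * (2 ^ (n / 16 + 1 + 12 * e) * 2 ^ (n - m)) := by
        rw [hP]
        exact Nat.mul_le_mul_left 2 (Nat.mul_le_mul_right _ (choose_sq_le n e (by omega)))
    _ = 2 ^ n := by
        rw [← pow_add, ← pow_succ']
        congr 1
        omega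

end Vale.Agent.P238
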