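import Vale.Agent.P238.EditBasic
import Vale.Agent.P238.Far

/-!
# P238 module E: elementary facts on edit distance
-/

namespace Vale.Agent.P238

/-- Pad a word with zeros at the end. -/
def pad {n0 n : ℕ} (x : Fin n0 → Bool) : Fin n → Bool :=
  fun i => if h : i.val < n0 then x ⟨i.val, h⟩ else false

theorem ED_self (x : List Bool) : ED x x = 0 :=
  Nat.le_zero.mp (ED_le (within_refl x))

theorem ofFn_pad {n0 n : ℕ} (hn : n0 ≤ n) (x : Fin n0 → Bool) :
    List.ofFn (pad (n := n) x) = List.ofFn x ++ List.replicate (n - n0) false := by
  apply List.ext_getElem
  · simp; omega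
  · intro i h1 h2
    by_cases hi : i < n0
    · simp [pad, hi]
    · rw [List.getElem_append_right (by simp; omega), List.getElem_replicate]
      simp [pad, hi]

theorem one_le_EDn {n : ℕ} {x y : Fin n → Bool} (h : x ≠ y) : 1 ≤ EDn x y := by
  by_contra h0
  have h1 := ED_spec (List.ofFn x) (List.ofFn y)
  have h2 : ED (List.ofFn x) (List.ofFn y) = 0 := by unfold EDn at h0; omega
  rw [h2] at h1
  exact h (List.ofFn_injective h1)

/-- A small edit distance of padded words gives a long common subsequence of the original ones. -/
theorem common_of_ED_pad {n0 n : ℕ} (hn : n0 ≤ n) (x y : Fin n0 → Bool) :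
    Common (EDn (n := n) (pad x) (pad y)) x y := by
  obtain ⟨l, h1, h2, h3⟩ :=
    editPath_common (ED_spec (List.ofFn (pad (n := n) x)) (List.ofFn (pad (n := n) y)))
  rw [ofFn_pad hn] at h1 h2
  refine ⟨l.take (l.length - (n - n0)), ?_, ?_, ?_⟩
  · obtain ⟨l1, l2, rfl, p1, p2⟩ := List.sublist_append_iff.mp h1
    have := p2.length_le
    rw [List.length_replicate] at this
    refine List.Sublist.trans ?_ p1
    rw [List.take_append_of_le_length (by simp; omega)]
    exact List.take_sublist _ _
  · obtain ⟨l1, l2, rfl, p1, p2⟩ := List.sublist_append_iff.mp h2
    have := p2.length_le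
    rw [List.length_replicate] at this
    refine List.Sublist.trans ?_ p1
    rw [List.take_append_of_le_length (by simp; omega)]
    exact List.take_sublist _ _
  · simp only [List.length_take, List.length_ofFn] at h3 ⊢
    unfold EDn
    omega

theorem EDn_pad_flip {n0 n : ℕ} (x : Fin n0 → Bool) (i : Fin n0) :
    EDn (n := n) (pad x) (pad (Function.update x i (!x i))) ≤ 1 := by
  unfold EDn
  by_cases hi : i.val < n
  · refine ED_le ⟨1, le_rfl, _, ⟨(List.ofFn (pad (n := n) x)).take i.val,
      (List.ofFn (pad (n := n) x)).drop (i.val + 1), Or.inr (Or.inr ⟨x i, !x i, ?_, ?_⟩)⟩, rfl⟩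
    · conv_lhs => rw [← List.take_append_drop i.val (List.ofFn (pad (n := n) x))]
      rw [List.drop_eq_getElem_cons (by simp; omega)]
      simp [pad]
    · apply List.ext_getElem
      · simp; omega
      · intro k hk hk'
        rcases lt_trichotomy k i.val with hk2 | hk2 | hk2
        · rw [List.getElem_append_left (by simp; omega)]
          simp only [List.getElem_ofFn, List.getElem_take, pad]
          split_ifs with h
          · rw [Function.update_of_ne]
            intro e
            have := congrArg Fin.val e
            simp at this; omega
          · rfl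
        · subst hk2
          rw [List.getElem_append_right (by simp)]
          simp [pad, Nat.min_eq_left hi.le]
        · rw [List.getElem_append_right (by simp; omega)]
          simp only [List.length_take, List.length_ofFn, Nat.min_eq_left hi.le]
          obtain ⟨d, rfl⟩ : ∃ d, k = i.val + 1 + d := ⟨k - (i.val + 1), by omega⟩
          have e : i.val + 1 + d - i.val = d + 1 := by omega
          simp only [e, List.getElem_cons_succ, List.getElem_drop, List.getElem_ofFn, pad]
          split_ifs with h
          · rw [Function.update_of_ne]
            intro e'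
            have := congrArg Fin.val e'
            simp at this; omega
          · rfl
  · have he : pad (n := n) (Function.update x i (!x i)) = pad (n := n) x := by
      funext k
      simp only [pad]
      split_ifs with h
      · rw [Function.update_of_ne]
        intro e'
        have := congrArg Fin.val e'
        simp at this
        omega
      · rfl
    rw [he, ED_self]
    omega

/-- Rotating each of `A` consecutive segments of length `L` costs twice the total rotation. -/
theorem EDn_pad_rot {A L n : ℕ} [NeZero L] (hn : A * L ≤ n) (t : Fin A → Fin L) (c : Fin A → ℕ)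
    (hc : ∀ a, (t a).val ≤ c a ∨ L - (t a).val ≤ c a) (x : Fin (A * L) → Bool) :
    EDn (n := n) (pad x)
      (pad (fun i => x (finProdFinEquiv
        ((finProdFinEquiv.symm i).1, (finProdFinEquiv.symm i).2 + t (finProdFinEquiv.symm i).1))))
      ≤ 2 * ∑ a, c a := by
  set y : Fin (A * L) → Bool := fun i => x (finProdFinEquiv
    ((finProdFinEquiv.symm i).1, (finProdFinEquiv.symm i).2 + t (finProdFinEquiv.symm i).1)) with hy
  let seg : (Fin (A * L) → Bool) → Fin A → List Bool :=
    fun z a => List.ofFn fun k : Fin L => z (finProdFinEquiv (a, k))
  have hflat : ∀ z : Fin (A * L) → Bool,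
      List.ofFn z = ((List.finRange A).map (seg z)).flatten := by
    intro z
    rw [List.ofFn_mul, ← List.ofFn_eq_map]
    congr 1
    simp only [seg]
    refine congrArg List.ofFn (funext fun a => congrArg List.ofFn (funext fun k => congrArg z ?_))
    apply Fin.ext
    simp only [finProdFinEquiv_apply_val]
    ring
  have hseg : ∀ a : Fin A, Within (2 * c a) (seg x a) (seg y a) := by
    intro a
    have e : seg y a = (seg x a).drop (t a).val ++ (seg x a).take (t a).val := by
      have hr : (seg x a).rotate (t a).val = seg y a := by
        apply List.ext_getElem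
        · simp [seg]
        · intro k h1 h2
          rw [List.getElem_rotate]
          simp only [seg, List.getElem_ofFn, List.length_ofFn, hy, Equiv.symm_apply_apply]
          congr 3
      rw [← hr, List.rotate_eq_drop_append_take (by simp [seg])]
    rw [e]
    conv => arg 2; rw [← List.take_append_drop (t a).val (seg x a)]
    exact within_swap _ _ _ (by simpa [seg] using hc a)
  unfold EDn
  rw [ofFn_pad hn, ofFn_pad hn, hflat x, hflat y]
  refine ED_le (within_mono (within_append
    (within_flatten (seg x) (seg y) (fun a => 2 * c a) (List.finRange A) fun a _ => hseg a)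
    (within_refl _)) ?_)
  rw [← List.ofFn_eq_map, List.sum_ofFn, Finset.mul_sum]
  simp

end Vale.Agent.P238
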