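import Vale.Agent.P238.Defs

/-!
# P238: edit scripts
-/

namespace Vale.Agent.P238

/-- At most `k` operations suffice. -/
def Within (k : ℕ) (x y : List Bool) : Prop := ∃ j ≤ k, EditPath j x y

theorem editPath_trans : ∀ {a b : ℕ} {x y z : List Bool},
    EditPath a x y → EditPath b y z → EditPath (a + b) x z
  | 0, b, x, y, z, h1, h2 => by
    have h1' : x = y := h1
    rw [Nat.zero_add, h1']; exact h2
  | a + 1, b, x, y, z, h1, h2 => by
    obtain ⟨w, hw, hp⟩ := h1
    rw [Nat.succ_add]
    exact ⟨w, hw, editPath_trans hp h2⟩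

theorem edit1_context {x y : List Bool} (u v : List Bool) (h : Edit1 x y) :
    Edit1 (u ++ x ++ v) (u ++ y ++ v) := by
  obtain ⟨p, q, h⟩ := h
  refine ⟨u ++ p, q ++ v, ?_⟩
  rcases h with ⟨a, rfl, rfl⟩ | ⟨a, rfl, rfl⟩ | ⟨a, b, rfl, rfl⟩
  · exact Or.inl ⟨a, by simp, by simp⟩
  · exact Or.inr (Or.inl ⟨a, by simp, by simp⟩)
  · exact Or.inr (Or.inr ⟨a, b, by simp, by simp⟩)

theorem editPath_context : ∀ {k : ℕ} {x y : List Bool} (u v : List Bool),
    EditPath k x y → EditPath k (u ++ x ++ v) (u ++ y ++ v)
  | 0, x, y, u, v, h => by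
    have h' : x = y := h
    show u ++ x ++ v = u ++ y ++ v
    rw [h']
  | k + 1, x, y, u, v, h => by
    obtain ⟨w, hw, hp⟩ := h
    exact ⟨u ++ w ++ v, edit1_context u v hw, editPath_context u v hp⟩

theorem within_refl (x : List Bool) : Within 0 x x := ⟨0, le_rfl, rfl⟩

theorem within_mono {k k' : ℕ} {x y : List Bool} (h : Within k x y) (hk : k ≤ k') :
    Within k' x y := by
  obtain ⟨j, hj, hp⟩ := h; exact ⟨j, hj.trans hk, hp⟩

theorem within_trans {a b : ℕ} {x y z : List Bool} (h1 : Within a x y) (h2 : Within b y z) :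
    Within (a + b) x z := by
  obtain ⟨i, hi, hp⟩ := h1
  obtain ⟨j, hj, hq⟩ := h2
  exact ⟨i + j, Nat.add_le_add hi hj, editPath_trans hp hq⟩

theorem within_context {k : ℕ} {x y : List Bool} (u v : List Bool) (h : Within k x y) :
    Within k (u ++ x ++ v) (u ++ y ++ v) := by
  obtain ⟨j, hj, hp⟩ := h; exact ⟨j, hj, editPath_context u v hp⟩

theorem within_append {a b : ℕ} {x x' y y' : List Bool} (h1 : Within a x x') (h2 : Within b y y') :
    Within (a + b) (x ++ y) (x' ++ y') := by
  refine within_trans (y := x' ++ y) ?_ ?_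
  · simpa using within_context [] y h1
  · simpa using within_context x' [] h2

theorem within_delete (p : List Bool) : Within p.length p [] := by
  induction p with
  | nil => exact within_refl _
  | cons a p ih =>
    obtain ⟨j, hj, hp⟩ := ih
    refine ⟨j + 1, by simp; omega, p, ⟨[], p, Or.inr (Or.inl ⟨a, by simp, by simp⟩)⟩, hp⟩

theorem within_insert (p : List Bool) : Within p.length [] p := by
  induction p with
  | nil => exact within_refl _
  | cons a p ih =>
    have h1 : Within 1 p (a :: p) :=
      ⟨1, le_rfl, a :: p, ⟨[], p, Or.inl ⟨a, by simp, by simp⟩⟩, rfl⟩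
    exact within_mono (within_trans ih h1) (by simp)

theorem within_all (x y : List Bool) : Within (x.length + y.length) x y :=
  within_trans (within_delete x) (within_insert y)

theorem ED_le {k : ℕ} {x y : List Bool} (h : Within k x y) : ED x y ≤ k := by
  obtain ⟨j, hj, hp⟩ := h
  exact le_trans (Nat.sInf_le hp) hj

theorem ED_spec (x y : List Bool) : EditPath (ED x y) x y := by
  obtain ⟨j, _, hp⟩ := within_all x y
  exact Nat.sInf_mem (s := {k | EditPath k x y}) ⟨j, hp⟩

theorem within_swap (p q : List Bool) (c : ℕ) (hc : p.length ≤ c ∨ q.length ≤ c) :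
    Within (2 * c) (p ++ q) (q ++ p) := by
  rcases hc with h | h
  · have h1 : Within p.length (p ++ q) q := by
      simpa using within_context [] q (within_delete p)
    have h2 : Within p.length q (q ++ p) := by
      simpa using within_context q [] (within_insert p)
    exact within_mono (within_trans h1 h2) (by omega)
  · have h1 : Within q.length (p ++ q) p := by
      simpa using within_context p [] (within_delete q)
    have h2 : Within q.length p (q ++ p) := by
      simpa using within_context [] p (within_insert q)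
    exact within_mono (within_trans h1 h2) (by omega)

theorem within_flatten {α : Type*} (f g : α → List Bool) (c : α → ℕ) (l : List α)
    (h : ∀ a ∈ l, Within (c a) (f a) (g a)) :
    Within (l.map c).sum (l.map f).flatten (l.map g).flatten := by
  induction l with
  | nil => exact within_refl _
  | cons a l ih =>
    simp only [List.map_cons, List.sum_cons, List.flatten_cons]
    exact within_append (h a (by simp)) (ih fun b hb => h b (by simp [hb]))

theorem editPath_common : ∀ {k : ℕ} {x y : List Bool}, EditPath k x y →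
    ∃ l : List Bool, l.Sublist x ∧ l.Sublist y ∧ x.length ≤ l.length + k
  | 0, x, y, h => by
    have h' : x = y := h
    exact ⟨x, List.Sublist.refl x, by rw [h'], by omega⟩
  | k + 1, x, y, h => by
    obtain ⟨z, hz, hp⟩ := h
    obtain ⟨l, hl1, hl2, hlen⟩ := editPath_common hp
    obtain ⟨u, v, hz⟩ := hz
    have drop_one : ∀ a : Bool, l.Sublist (u ++ a :: v) →
        ∃ l' : List Bool, l'.Sublist (u ++ v) ∧ l'.Sublist l ∧ l.length ≤ l'.length + 1 := by
      intro a ha
      obtain ⟨l1, l2, rfl, h1, h2⟩ := List.sublist_append_iff.mp ha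
      rcases List.sublist_cons_iff.mp h2 with h3 | ⟨r, rfl, h3⟩
      · exact ⟨l1 ++ l2, h1.append h3, List.Sublist.refl _, by simp⟩
      · exact ⟨l1 ++ r, h1.append h3, (List.sublist_cons_self a r).append_left l1,
          by simp; omega⟩
    rcases hz with ⟨a, rfl, rfl⟩ | ⟨a, rfl, rfl⟩ | ⟨a, b, rfl, rfl⟩
    · obtain ⟨l', h1, h2, h3⟩ := drop_one a hl1
      exact ⟨l', h1, h2.trans hl2, by simp at hlen ⊢; omega⟩
    · exact ⟨l, hl1.trans ((List.sublist_cons_self a v).append_left u), hl2,
        by simp at hlen ⊢; omega⟩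
    · obtain ⟨l', h1, h2, h3⟩ := drop_one b hl1
      exact ⟨l', h1.trans ((List.sublist_cons_self a v).append_left u), h2.trans hl2,
        by simp at hlen ⊢; omega⟩

end Vale.Agent.P238
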