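import Vale.Agent.P238.Edit

/-!
# P238 module X: some embedding exists, so the infimum is over a nonempty set
-/

namespace Vale.Agent.P238

theorem exists_embeds (n : ℕ) : ∃ D : ℝ, Embeds n D := by
  classical
  refine ⟨2 * ((n : ℝ) + 1),
    fun x => lp.single 1 (Fintype.equivFin (Fin n → Bool) x).val (1 : ℝ),
    1 / ((n : ℝ) + 1), by positivity, fun x y => ?_⟩
  have hn : (0 : ℝ) < (n : ℝ) + 1 := by positivity
  rcases eq_or_ne x y with rfl | hne
  · have h0 : EDn x x = 0 := Nat.eq_zero_of_le_zero (ED_le (within_refl _))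
    simp [h0]
  · set p := (Fintype.equivFin (Fin n → Bool) x).val
    set q := (Fintype.equivFin (Fin n → Bool) y).val
    have hpq : p ≠ q := fun e =>
      hne ((Fintype.equivFin (Fin n → Bool)).injective (Fin.ext e))
    have hnorm : ‖lp.single (E := fun _ : ℕ => ℝ) 1 p (1 : ℝ) - lp.single 1 q (1 : ℝ)‖ = 2 := by
      rw [lp.norm_eq_tsum_rpow (by norm_num)]
      simp only [ENNReal.toReal_one, Real.rpow_one, div_one, lp.coeFn_sub, Pi.sub_apply,
        lp.single_apply, Real.norm_eq_abs]
      rw [tsum_eq_sum (s := {p, q}) fun i hi => by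
        simp only [Finset.mem_insert, Finset.mem_singleton, not_or] at hi
        simp [hi.1, hi.2]]
      rw [Finset.sum_pair hpq]
      simp [hpq, hpq.symm]
      norm_num
    have hup : (EDn x y : ℝ) ≤ 2 * ((n : ℝ) + 1) := by
      have h1 : EDn x y ≤ n + n := by
        have := ED_le (within_all (List.ofFn x) (List.ofFn y))
        simpa [EDn] using this
      have h2 : (EDn x y : ℝ) ≤ (n : ℝ) + n := by exact_mod_cast h1
      linarith
    have hlow : (1 : ℝ) ≤ (EDn x y : ℝ) := by exact_mod_cast one_le_EDn hne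
    constructor
    · rw [hnorm, div_mul_eq_mul_div, div_le_iff₀ hn, one_mul]; exact hup
    · rw [hnorm, show 1 / ((n : ℝ) + 1) * (2 * ((n : ℝ) + 1)) = 2 by field_simp]
      linarith

end Vale.Agent.P238
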