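import Mathlib

/-!
# P238 module P: the choice of parameters
-/

namespace Vale.Agent.P238

open Filter

/-- `24 (L + 1) < 2 ^ L` from `L = 9` on. -/
theorem lin_lt_two_pow {L : ℕ} (hL : 9 ≤ L) : 24 * (L + 1) < 2 ^ L := by
  induction L, hL using Nat.le_induction with
  | base => norm_num
  | succ L _ ih =>
    rw [pow_succ]
    omega

set_option exponentiation.threshold 600 in
theorem params_eventually : ∃ c : ℝ, 0 < c ∧ ∀ᶠ n : ℕ in atTop, ∃ r M d : ℕ,
    2 ≤ r ∧ 3 ≤ M ∧ 1 ≤ d ∧ M * d ≤ 2 ^ r ∧ (3 ^ d * d) ^ 4 ≤ 2 ^ ((r * M) / 2) ∧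
    1000000 ≤ 2 ^ (r * M) * 2 ^ (r * M) ∧ 2 ^ (r * M) * 2 ^ (r * M) ≤ n ∧
    c * Real.log n ^ 2 / Real.log (Real.log n) ≤ ((M : ℝ) - 1) * d := by
  refine ⟨1 / 196608, by norm_num, ?_⟩
  filter_upwards [(tendsto_natCast_atTop_atTop (R := ℝ)).eventually_ge_atTop (2 ^ (512 : ℕ))]
    with n hn'
  -- `l = log₂ n` and `L = log₂ l`
  have hn : 2 ^ (512 : ℕ) ≤ n := by exact_mod_cast hn'
  have hn0 : n ≠ 0 := by
    rintro rfl
    exact absurd hn (not_le.mpr (pow_pos (by norm_num) _))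
  obtain ⟨l, hl⟩ : ∃ l, l = Nat.log 2 n := ⟨_, rfl⟩
  have hl512 : 512 ≤ l := hl ▸ Nat.le_log_of_pow_le Nat.one_lt_two hn
  have hlow : 2 ^ l ≤ n := hl ▸ Nat.pow_log_le_self 2 hn0
  have hhigh : n < 2 ^ (l + 1) := hl ▸ Nat.lt_pow_succ_log_self Nat.one_lt_two n
  obtain ⟨L, hL⟩ : ∃ L, L = Nat.log 2 l := ⟨_, rfl⟩
  have hL9 : 9 ≤ L := hL ▸ Nat.le_log_of_pow_le Nat.one_lt_two (by norm_num; omega)
  have hLlow : 2 ^ L ≤ l := hL ▸ Nat.pow_log_le_self 2 (by omega)
  have hLhigh : l < 2 ^ (L + 1) := hL ▸ Nat.lt_pow_succ_log_self Nat.one_lt_two l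
  have hlin := lin_lt_two_pow hL9
  obtain ⟨r, hr⟩ : ∃ r, r = 4 * (L + 1) := ⟨_, rfl⟩
  obtain ⟨M, hM⟩ : ∃ M, M = (l / 2) / r := ⟨_, rfl⟩
  obtain ⟨d, hd⟩ : ∃ d, d = (r * M) / 24 := ⟨_, rfl⟩
  have hM3 : 3 ≤ M := by
    rw [hM, Nat.le_div_iff_mul_le (by omega)]
    omega
  have hrM : r * M ≤ l / 2 := hM ▸ Nat.mul_div_le _ _
  have hrM' : l / 2 < r * M + r := by
    have := Nat.lt_mul_div_succ (l / 2) (show 0 < r by omega)
    rw [← hM, Nat.mul_add, Nat.mul_one] at this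
    exact this
  have h3r : 3 * r ≤ r * M := by
    rw [Nat.mul_comm 3 r]
    exact Nat.mul_le_mul_left r hM3
  have hMl : M ≤ l := le_trans (hM ▸ Nat.div_le_self _ _) (Nat.div_le_self _ _)
  refine ⟨r, M, d, by omega, hM3, by omega, ?_, ?_, ?_, ?_, ?_⟩
  · calc M * d ≤ l * l := Nat.mul_le_mul hMl (by omega)
      _ ≤ 2 ^ (L + 1) * 2 ^ (L + 1) := Nat.mul_le_mul hLhigh.le hLhigh.le
      _ ≤ 2 ^ r := by
        rw [← pow_add]
        exact Nat.pow_le_pow_right (by norm_num) (by omega)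
  · calc (3 ^ d * d) ^ 4 ≤ (3 ^ d * 2 ^ d) ^ 4 :=
          Nat.pow_le_pow_left (Nat.mul_le_mul_left _ d.lt_two_pow_self.le) 4
      _ ≤ ((2 ^ 3) ^ d) ^ 4 := by
        rw [← mul_pow]
        exact Nat.pow_le_pow_left (Nat.pow_le_pow_left (by norm_num) d) 4
      _ ≤ 2 ^ ((r * M) / 2) := by
        rw [← pow_mul, ← pow_mul]
        exact Nat.pow_le_pow_right (by norm_num) (by omega)
  · calc (1000000 : ℕ) ≤ 2 ^ 10 * 2 ^ 10 := by norm_num
      _ ≤ 2 ^ (r * M) * 2 ^ (r * M) := by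
        have h10 : 2 ^ 10 ≤ 2 ^ (r * M) := Nat.pow_le_pow_right (by norm_num) (by omega)
        exact Nat.mul_le_mul h10 h10
  · refine le_trans ?_ hlow
    rw [← pow_add]
    exact Nat.pow_le_pow_right (by norm_num) (by omega)
  · -- the real inequality
    have hlR : (512 : ℝ) ≤ l := by exact_mod_cast hl512
    have hln2 : Real.log 2 < 1 := by
      linarith [Real.log_two_lt_d9]
    have hln2' : (1 / 2 : ℝ) < Real.log 2 := by
      linarith [Real.log_two_gt_d9]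
    have hnR : (0 : ℝ) < n := by exact_mod_cast Nat.pos_of_ne_zero hn0
    have hup : Real.log n ≤ 2 * l := by
      have h := Real.log_le_log hnR
        (show (n : ℝ) ≤ (2 : ℝ) ^ (l + 1) by exact_mod_cast hhigh.le)
      rw [Real.log_pow, Nat.cast_succ] at h
      nlinarith
    have hdown : (l : ℝ) / 2 ≤ Real.log n := by
      have h := Real.log_le_log (by positivity)
        (show (2 : ℝ) ^ l ≤ n by exact_mod_cast hlow)
      rw [Real.log_pow] at h
      nlinarith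
    -- `r ≤ 32 log log n`
    have hlogl : (L : ℝ) * Real.log 2 ≤ Real.log l := by
      rw [← Real.log_pow]
      exact Real.log_le_log (by positivity) (by exact_mod_cast hLlow)
    have hL9R : (9 : ℝ) ≤ L := by exact_mod_cast hL9
    have hll : Real.log l - Real.log 2 ≤ Real.log (Real.log n) := by
      rw [← Real.log_div (by positivity) (by norm_num)]
      exact Real.log_le_log (by positivity) hdown
    have hrR : (r : ℝ) = 4 * ((L : ℝ) + 1) := by exact_mod_cast hr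
    have hr32 : (r : ℝ) ≤ 32 * Real.log (Real.log n) := by
      nlinarith
    have hrpos : (0 : ℝ) < r := by rw [hrR]; positivity
    -- lower bounds on `M - 1` and on `d`
    have hA : (l : ℝ) ≤ 4 * ((r : ℝ) * M) := by
      have : l ≤ 4 * (r * M) := by omega
      exact_mod_cast this
    have hB : (l : ℝ) ≤ 192 * (d : ℝ) := by
      have : l ≤ 192 * d := by omega
      exact_mod_cast this
    have hM3R : (3 : ℝ) ≤ M := by exact_mod_cast hM3
    have hM1 : (l : ℝ) ≤ 8 * (r : ℝ) * ((M : ℝ) - 1) := by nlinarith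
    have hprod : (l : ℝ) * l ≤ 8 * (r : ℝ) * ((M : ℝ) - 1) * (192 * (d : ℝ)) :=
      mul_le_mul hM1 hB (by positivity) (by nlinarith)
    have hLLpos : 0 < Real.log (Real.log n) := by linarith
    rw [div_le_iff₀ hLLpos]
    have hsq : Real.log n ^ 2 ≤ 4 * ((l : ℝ) * l) := by
      nlinarith
    have hnn : 0 ≤ ((M : ℝ) - 1) * d := mul_nonneg (by linarith) (Nat.cast_nonneg _)
    nlinarith [mul_le_mul_of_nonneg_left hr32 hnn]

end Vale.Agent.P238
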