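import Vale.Agent.P238.BoolIneq
import Vale.Agent.P238.Cuts
import Vale.Agent.P238.Params
import Vale.Agent.P238.Exists

/-!
# P238: the lower bound on the distortion
-/

namespace Vale.Agent.P238

open Finset

/-- Index set of all moves entering the inequality. -/
abbrev Moves (r M K : ℕ) : Type :=
  (Σ i : Fin (M - 1), Fin (numI r M i) → Fin (2 * halfW r M i)) ⊕
  (Σ i : Fin (M - 1), Fin (numI r M i) → Bool) ⊕
  (Fin (bigP r M) × Fin (bigP r M)) ⊕ (Fin (bigP r M) × Fin K)

/-- Coefficient of a move. -/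
noncomputable def moveCoef (r M K d : ℕ) : Moves r M K → ℝ
  | Sum.inl z => -(1 / ((2 * halfW r M z.1 : ℕ) : ℝ) ^ numI r M z.1)
  | Sum.inr (Sum.inl z) => 1 / 2 ^ numI r M z.1
  | Sum.inr (Sum.inr (Sum.inl _)) => 40 * (2 / d)
  | Sum.inr (Sum.inr (Sum.inr _)) => 40 * (2 / Real.sqrt K)

/-- The move itself. -/
def moveMap {r M K : ℕ} (hr : 1 ≤ r) :
    Moves r M K → (Idx r M → Bool) → Idx r M → Bool
  | Sum.inl z => fun x p => x (piBits hr z.1 z.2 p)
  | Sum.inr (Sum.inl z) => fun x p => x (sigBits z.1 z.2 p)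
  | Sum.inr (Sum.inr (Sum.inl z)) => flipBit z
  | Sum.inr (Sum.inr (Sum.inr z)) => blockMap z.1 (rotBits z.2.val)

theorem sum_move_nonneg {r M K d : ℕ} (hr : 2 ≤ r) (hMR : M ≤ 2 ^ r) (hK : K ≤ bigP r M)
    (hd : 1 ≤ d) (hKd : (3 ^ d * d) ^ 4 ≤ K) (f : (Idx r M → Bool) → Bool) :
    0 ≤ ∑ k, moveCoef r M K d k *
      ∑ x, |bv (f x) - bv (f (moveMap (by omega : 1 ≤ r) k x))| := by
  have h := bool_ineq hr hMR hK hd hKd f
  have hC : (0 : ℝ) < 2 ^ Fintype.card (Idx r M) := by positivity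
  have hd' : ∀ T : (Idx r M → Bool) → Idx r M → Bool,
      ∑ x, |bv (f x) - bv (f (T x))| = 2 ^ Fintype.card (Idx r M) * dis f T := by
    intro T
    unfold dis avg
    field_simp
  simp only [hd', Fintype.sum_sum_type, Fintype.sum_sigma, Fintype.sum_prod_type, moveCoef,
    moveMap]
  simp only [sum_add_distrib, mul_add, mul_sum, sum_div] at h
  have key : ∀ a b : ℝ, a * (2 ^ Fintype.card (Idx r M) * b)
      = 2 ^ Fintype.card (Idx r M) * (a * b) := fun a b => by ring
  simp only [key, ← mul_sum, ← mul_add]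
  refine mul_nonneg hC.le ?_
  simp only [mul_sum, neg_mul, sum_neg_distrib, one_div_mul_eq_div]
  simp only [← mul_assoc] at h
  have hrg : ∀ b, ∑ t : Fin K, 40 * (2 / Real.sqrt K) * dis f (blockMap b (rotBits t.val)) =
      ∑ t ∈ range K, 40 * (2 / Real.sqrt K) * dis f (blockMap b (rotBits t)) := fun b =>
    Fin.sum_univ_eq_sum_range
      (fun t => 40 * (2 / Real.sqrt K) * dis f (blockMap b (rotBits t))) K
  simp only [hrg]
  linarith

/-- Words on `Idx r M` as words of length `n`. -/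
def word (r M n : ℕ) (x : Idx r M → Bool) : Fin n → Bool :=
  pad (fun i : Fin (bigP r M * bigP r M) => x (finProdFinEquiv.symm i))

theorem word_flip {r M n : ℕ} (x : Idx r M → Bool) (z : Idx r M) :
    EDn (word r M n x) (word r M n (flipBit z x)) ≤ 1 := by
  have h := EDn_pad_flip (n := n)
    (fun i : Fin (bigP r M * bigP r M) => x (finProdFinEquiv.symm i)) (finProdFinEquiv z)
  have e : (fun i : Fin (bigP r M * bigP r M) => flipBit z x (finProdFinEquiv.symm i)) =
      Function.update (fun i : Fin (bigP r M * bigP r M) => x (finProdFinEquiv.symm i))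
        (finProdFinEquiv z) (!x (finProdFinEquiv.symm (finProdFinEquiv z))) := by
    funext i
    by_cases hi : i = finProdFinEquiv z
    · subst hi; simp [flipBit]
    · have hne : finProdFinEquiv.symm i ≠ z := fun e => hi (by rw [← e, Equiv.apply_symm_apply])
      rw [Function.update_of_ne hi, flipBit, Function.update_of_ne hne]
  unfold word
  rw [e]
  exact h

theorem word_rot {r M n K : ℕ} (hn : bigP r M * bigP r M ≤ n) (hK : K ≤ bigP r M)
    (b : Fin (bigP r M)) (t : Fin K) (x : Idx r M → Bool) :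
    EDn (word r M n x) (word r M n (blockMap b (rotBits t.val) x)) ≤ 2 * t.val := by
  have hP : 0 < bigP r M := Nat.two_pow_pos _
  have htP : t.val < bigP r M := lt_of_lt_of_le t.isLt hK
  refine le_trans (EDn_rot_nat (L := bigP r M) (A := bigP r M) rfl hP hn
    (fun a => if a = b.val then t.val else 0) (fun a => if a = b.val then t.val else 0)
    (fun a _ => by split_ifs <;> assumption) (fun a _ => Or.inl le_rfl)
    (fun i => x (finProdFinEquiv.symm i)) _ ?_) (by simp)
  intro i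
  obtain ⟨⟨a, k⟩, rfl⟩ := finProdFinEquiv.surjective i
  refine ⟨finProdFinEquiv (a, if a = b then k + Fin.ofNat _ t.val else k), ?_, ?_⟩
  · simp only [finProdFinEquiv_apply_val]
    rw [Nat.add_mul_div_left _ _ hP, Nat.div_eq_of_lt k.isLt, Nat.zero_add,
      Nat.add_mul_mod_self_left, Nat.mod_eq_of_lt k.isLt]
    by_cases hab : a = b
    · subst hab
      simp [Fin.add_def, Fin.val_ofNat, Nat.mod_eq_of_lt htP]
      ring
    · simp [hab, Fin.val_inj, Nat.mod_eq_of_lt k.isLt]
      ring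
  · simp only [Equiv.symm_apply_apply, blockMap, setBlock]
    by_cases hab : a = b
    · subst hab; simp [rotBits]
    · simp [hab]

/-- Coordinates of one scale as positions in the word. -/
def scaleWord (r M : ℕ) (i : Fin (M - 1)) :
    (Fin (numI r M i) × Fin (lenI r M i)) × Fin (bigP r M) ≃ Fin (bigP r M * bigP r M) :=
  (scaleEquiv r M i).symm.trans finProdFinEquiv

theorem scaleWord_val {r M : ℕ} (i : Fin (M - 1)) (a : Fin (numI r M i))
    (g : Fin (lenI r M i)) (k : Fin (bigP r M)) :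
    (scaleWord r M i ((a, g), k)).val
      = (a.val * lenI r M i + g.val) * bigP r M + k.val := by
  simp [scaleWord, scaleEquiv, splitPos]
  ring

theorem scale_size {r M : ℕ} (i : Fin (M - 1)) :
    bigP r M * bigP r M = numI r M i * (lenI r M i * bigP r M) := by
  rw [← Nat.mul_assoc]
  congr 1
  rw [← pow_add, ← Nat.mul_add, Nat.sub_add_cancel (by have := i.isLt; omega)]

theorem word_bitPerm {r M n : ℕ} (i : Fin (M - 1))
    (π : Equiv.Perm (Fin (numI r M i) × Fin (lenI r M i))) (x : Idx r M → Bool) :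
    word r M n (fun p => x (bitPerm (scaleEquiv r M i).symm π p)) =
      pad (fun q => (fun j => x (finProdFinEquiv.symm j)) (bitPerm (scaleWord r M i) π q)) := by
  unfold word
  congr 1
  funext q
  simp [bitPerm, scaleWord]

theorem word_sig {r M n : ℕ} (hr : 1 ≤ r) (hn : bigP r M * bigP r M ≤ n) (i : Fin (M - 1))
    (eps : Fin (numI r M i) → Bool) (x : Idx r M → Bool) :
    EDn (word r M n x) (word r M n fun p => x (sigBits i eps p)) * 2 ^ r
      ≤ bigP r M * bigP r M := by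
  have hlt : halfW r M i < lenI r M i := by
    rw [lenI_eq hr i]
    have h1 : 1 ≤ halfW r M i := Nat.one_le_two_pow
    have h2 : 2 * halfW r M i * 1 ≤ 2 * halfW r M i * 2 ^ r :=
      Nat.mul_le_mul_left _ Nat.one_le_two_pow
    omega
  have h := ED_sigma hlt (Nat.two_pow_pos _) (scaleWord r M i) (scaleWord_val i) (scale_size i) hn
    eps (fun j => x (finProdFinEquiv.symm j))
  rw [sigBits, word_bitPerm]
  refine le_trans (Nat.mul_le_mul_right _ h) (le_of_eq ?_)
  rw [scale_size i, lenI_eq hr i]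
  ring

theorem word_pi_far {r M n : ℕ} (hr : 1 ≤ r) (hn0 : 1000000 ≤ bigP r M * bigP r M)
    (hn : bigP r M * bigP r M ≤ n) (i : Fin (M - 1))
    (phi : Fin (numI r M i) → Fin (2 * halfW r M i)) :
    (2 : ℝ) ^ (bigP r M * bigP r M) * ((bigP r M * bigP r M : ℕ) : ℝ) / 2000 ≤
      ∑ x : Idx r M → Bool,
        (EDn (word r M n x) (word r M n fun p => x (piBits hr i phi p)) : ℝ) := by
  have hR : 2 ≤ 2 ^ r := by
    calc 2 = 2 ^ 1 := rfl
      _ ≤ 2 ^ r := Nat.pow_le_pow_right (by norm_num) hr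
  have h := ED_pi_far Nat.one_le_two_pow hR (lenI_eq hr i) (Nat.two_pow_pos _) (scaleWord r M i)
    (scaleWord_val i) (scale_size i) hn0 hn phi
  refine h.trans (le_of_eq ?_)
  refine Fintype.sum_equiv (Equiv.arrowCongr finProdFinEquiv.symm (Equiv.refl Bool)) _ _
    fun z => ?_
  unfold piBits
  rw [word_bitPerm]
  have e : (fun j => ((Equiv.arrowCongr finProdFinEquiv.symm (Equiv.refl Bool)) z)
      (finProdFinEquiv.symm j)) = z := by
    funext j
    simp only [Equiv.arrowCongr_apply, Equiv.refl_apply, Function.comp_apply, Equiv.symm_symm,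
      Equiv.apply_symm_apply, id]
  unfold word
  rw [e]

theorem lower_of_embeds {r M d n : ℕ} {D : ℝ} (hr : 2 ≤ r) (hM : 2 ≤ M) (hd : 1 ≤ d)
    (hMd : M * d ≤ 2 ^ r) (hKd : (3 ^ d * d) ^ 4 ≤ 2 ^ ((r * M) / 2))
    (hn0 : 1000000 ≤ bigP r M * bigP r M) (hn : bigP r M * bigP r M ≤ n) (hD : Embeds n D) :
    ((M : ℝ) - 1) * d ≤ 500000 * D := by
  obtain ⟨F, a, ha, hF⟩ := hD
  set K := 2 ^ ((r * M) / 2) with hKdef
  set P := bigP r M with hPdef
  have hK : K ≤ P := Nat.pow_le_pow_right (by norm_num) (Nat.div_le_self _ _)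
  have hMR : M ≤ 2 ^ r := le_trans (Nat.le_mul_of_pos_right M hd) hMd
  have hr1 : 1 ≤ r := by omega
  have h := cuts_lp (moveCoef r M K d) (moveMap hr1)
    (fun f => sum_move_nonneg hr hMR hK hd hKd f) (fun x => F (word r M n x))
  simp only [Fintype.sum_sum_type, Fintype.sum_sigma, moveCoef, moveMap] at h
  simp only [neg_mul, sum_neg_distrib, ← mul_sum] at h
  -- the distortion is at least one
  have hD0 : 0 ≤ D := by
    have hn1 : 1 ≤ n := le_trans (by omega) hn
    have hne : (fun _ : Fin n => true) ≠ fun _ => false := fun e => by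
      simpa using congrFun e ⟨0, hn1⟩
    obtain ⟨h1, h2⟩ := hF (fun _ => true) (fun _ => false)
    have h3 : (1 : ℝ) ≤ (EDn (fun _ : Fin n => true) (fun _ => false) : ℝ) := by
      exact_mod_cast one_le_EDn hne
    by_contra hneg
    push Not at hneg
    nlinarith [mul_pos ha (lt_of_lt_of_le one_pos h3)]
  have haD : 0 ≤ a * D := mul_nonneg ha.le hD0
  set C : ℝ := (2 : ℝ) ^ (P * P) with hC
  have hCpos : 0 < C := by positivity
  have hcard : (univ : Finset (Idx r M → Bool)).card = 2 ^ (P * P) := by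
    simp [Fintype.card_fin, hPdef]
  have hup : ∀ (T : (Idx r M → Bool) → Idx r M → Bool) (e : ℝ),
      (∀ x, (EDn (word r M n x) (word r M n (T x)) : ℝ) ≤ e) →
      ∑ x, ‖F (word r M n x) - F (word r M n (T x))‖ ≤ C * (a * D * e) := by
    intro T e he
    refine le_trans (sum_le_sum fun x _ => ((hF _ _).2.trans
      (mul_le_mul_of_nonneg_left (he x) haD))) (le_of_eq ?_)
    rw [sum_const, hcard, nsmul_eq_mul, hC]
    push_cast
    ring
  -- far moves
  have hfar : ∀ i : Fin (M - 1), a * (C * ((P * P : ℕ) : ℝ) / 2000) ≤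
      1 / ((2 * halfW r M i : ℕ) : ℝ) ^ numI r M i *
        ∑ phi : Fin (numI r M i) → Fin (2 * halfW r M i),
          ∑ x, ‖F (word r M n x) - F (word r M n fun p => x (piBits hr1 i phi p))‖ := by
    intro i
    have h1 : ∀ phi, a * (C * ((P * P : ℕ) : ℝ) / 2000) ≤
        ∑ x, ‖F (word r M n x) - F (word r M n fun p => x (piBits hr1 i phi p))‖ := by
      intro phi
      refine le_trans ?_ (sum_le_sum fun x _ => (hF _ _).1)
      rw [← mul_sum]
      exact mul_le_mul_of_nonneg_left (word_pi_far hr1 hn0 hn i phi) ha.le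
    have hh : 1 ≤ halfW r M i := Nat.one_le_two_pow
    have hpos : (0 : ℝ) < ((2 * halfW r M i : ℕ) : ℝ) ^ numI r M i := by
      have : 0 < 2 * halfW r M i := by omega
      positivity
    rw [one_div, inv_mul_eq_div, le_div_iff₀ hpos]
    calc a * (C * ((P * P : ℕ) : ℝ) / 2000) * ((2 * halfW r M i : ℕ) : ℝ) ^ numI r M i
        = ∑ _phi : Fin (numI r M i) → Fin (2 * halfW r M i),
            a * (C * ((P * P : ℕ) : ℝ) / 2000) := by
          simp [mul_comm]
      _ ≤ _ := sum_le_sum fun phi _ => h1 phi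
  -- rigid moves
  have hsig : ∀ i : Fin (M - 1), 1 / (2 : ℝ) ^ numI r M i *
      ∑ eps : Fin (numI r M i) → Bool,
        ∑ x, ‖F (word r M n x) - F (word r M n fun p => x (sigBits i eps p))‖
      ≤ C * (a * D * (((P * P : ℕ) : ℝ) / ((2 ^ r : ℕ) : ℝ))) := by
    intro i
    have h1 : ∀ eps, ∑ x, ‖F (word r M n x) - F (word r M n fun p => x (sigBits i eps p))‖
        ≤ C * (a * D * (((P * P : ℕ) : ℝ) / ((2 ^ r : ℕ) : ℝ))) := fun eps =>
      hup (fun x p => x (sigBits i eps p)) _ fun x => by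
        rw [le_div_iff₀ (by positivity)]
        exact_mod_cast word_sig hr1 hn i eps x
    refine le_trans (mul_le_mul_of_nonneg_left (sum_le_sum fun eps _ => h1 eps) (by positivity))
      (le_of_eq ?_)
    simp
  -- flips
  have hfl : ∑ z : Idx r M, ∑ x, ‖F (word r M n x) - F (word r M n (flipBit z x))‖
      ≤ ((P * P : ℕ) : ℝ) * (C * (a * D * 1)) := by
    refine le_trans (sum_le_sum fun z _ => hup (flipBit z) 1 fun x => by
      exact_mod_cast word_flip x z) (le_of_eq ?_)
    simp [hPdef]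
  -- rotations inside blocks
  have hro : ∑ z : Fin P × Fin K,
      ∑ x, ‖F (word r M n x) - F (word r M n (blockMap z.1 (rotBits z.2.val) x))‖
      ≤ ((P * K : ℕ) : ℝ) * (C * (a * D * (2 * K))) := by
    refine le_trans (sum_le_sum fun z _ => hup (blockMap z.1 (rotBits z.2.val)) (2 * K) fun x => ?_)
      (le_of_eq ?_)
    · have h1 := word_rot hn hK z.1 z.2 x
      have h2 := z.2.isLt
      exact_mod_cast le_trans h1 (by omega : 2 * z.2.val ≤ 2 * K)
    · simp
  have hF1 := sum_le_sum (s := univ) fun i _ => hfar i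
  have hS1 := sum_le_sum (s := univ) fun i _ => hsig i
  simp only [sum_const, card_univ, Fintype.card_fin, nsmul_eq_mul] at hF1 hS1
  have hflc := mul_le_mul_of_nonneg_left hfl (by positivity : (0:ℝ) ≤ 40 * (2 / d))
  have hroc := mul_le_mul_of_nonneg_left hro (by positivity : (0:ℝ) ≤ 40 * (2 / Real.sqrt K))
  have hmain : ((M - 1 : ℕ) : ℝ) * (a * (C * ((P * P : ℕ) : ℝ) / 2000)) ≤
      ((M - 1 : ℕ) : ℝ) * (C * (a * D * (((P * P : ℕ) : ℝ) / ((2 ^ r : ℕ) : ℝ))))
      + 40 * (2 / d) * (((P * P : ℕ) : ℝ) * (C * (a * D * 1)))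
      + 40 * (2 / Real.sqrt K) * (((P * K : ℕ) : ℝ) * (C * (a * D * (2 * K)))) := by
    linarith
  -- cancel and compare
  have hKK : (K : ℝ) * K ≤ (P : ℝ) := by
    have h1 : K * K ≤ P := by
      rw [hKdef, hPdef, ← pow_add]
      exact Nat.pow_le_pow_right (by norm_num) (by omega)
    exact_mod_cast h1
  have hd0 : (0 : ℝ) < d := by exact_mod_cast hd
  have hsqrt : (d : ℝ) ≤ Real.sqrt K := by
    rw [Real.le_sqrt hd0.le (by positivity)]
    have h1 : d ^ 2 ≤ K := le_trans (le_trans (Nat.pow_le_pow_right hd (by norm_num : 2 ≤ 4))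
      (Nat.pow_le_pow_left (Nat.le_mul_of_pos_left d (by positivity)) 4)) hKd
    exact_mod_cast h1
  have hinv : 2 / Real.sqrt K ≤ 2 / (d : ℝ) := by gcongr
  have hMd' : ((M - 1 : ℕ) : ℝ) / ((2 ^ r : ℕ) : ℝ) ≤ 1 / (d : ℝ) := by
    rw [div_le_div_iff₀ (by positivity) hd0, one_mul]
    have h1 : (M - 1) * d ≤ 2 ^ r := le_trans (Nat.mul_le_mul_right d (Nat.sub_le _ _)) hMd
    exact_mod_cast h1
  have hP0 : (0 : ℝ) < ((P * P : ℕ) : ℝ) := by
    have : 0 < P * P := by omega
    exact_mod_cast this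
  set Z : ℝ := a * C * ((P * P : ℕ) : ℝ) with hZ
  have hZpos : 0 < Z := by positivity
  have b1 : ((M - 1 : ℕ) : ℝ) * (C * (a * D * (((P * P : ℕ) : ℝ) / ((2 ^ r : ℕ) : ℝ))))
      ≤ Z * (D * (1 / d)) := by
    calc ((M - 1 : ℕ) : ℝ) * (C * (a * D * (((P * P : ℕ) : ℝ) / ((2 ^ r : ℕ) : ℝ))))
        = Z * (D * (((M - 1 : ℕ) : ℝ) / ((2 ^ r : ℕ) : ℝ))) := by rw [hZ]; ring
      _ ≤ Z * (D * (1 / d)) := by gcongr
  have b3 : 40 * (2 / Real.sqrt K) * (((P * K : ℕ) : ℝ) * (C * (a * D * (2 * K))))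
      ≤ Z * (D * (160 / d)) := by
    calc 40 * (2 / Real.sqrt K) * (((P * K : ℕ) : ℝ) * (C * (a * D * (2 * K))))
        = 40 * (2 / Real.sqrt K) * (2 * (C * (a * D) * P * ((K : ℝ) * K))) := by push_cast; ring
      _ ≤ 40 * (2 / (d : ℝ)) * (2 * (C * (a * D) * P * (P : ℝ))) := by gcongr
      _ = Z * (D * (160 / d)) := by rw [hZ]; push_cast; ring
  have hfinal : Z * (((M - 1 : ℕ) : ℝ) / 2000) ≤ Z * (D * (241 / d)) := by
    have e1 : Z * (((M - 1 : ℕ) : ℝ) / 2000)
        = ((M - 1 : ℕ) : ℝ) * (a * (C * ((P * P : ℕ) : ℝ) / 2000)) := by rw [hZ]; ring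
    have e2 : 40 * (2 / d) * (((P * P : ℕ) : ℝ) * (C * (a * D * 1))) = Z * (D * (80 / d)) := by
      rw [hZ]; ring
    have e3 : Z * (D * (241 / d))
        = Z * (D * (1 / d)) + Z * (D * (80 / d)) + Z * (D * (160 / d)) := by ring
    linarith
  have h5 := le_of_mul_le_mul_left hfinal hZpos
  rw [Nat.cast_sub (by omega), Nat.cast_one] at h5
  rw [div_le_iff₀ (by norm_num)] at h5
  have h6 := mul_le_mul_of_nonneg_right h5 hd0.le
  have h7 : D * (241 / d) * 2000 * d = D * 482000 := by field_simp; ring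
  rw [h7] at h6
  linarith

theorem c1ED_lower_bound : ∃ c : ℝ, 0 < c ∧ ∀ᶠ n : ℕ in Filter.atTop,
    c * Real.log n ^ 2 / Real.log (Real.log n) ≤ c1ED n := by
  obtain ⟨c, hc, hev⟩ := params_eventually
  refine ⟨c / 500000, by positivity, ?_⟩
  filter_upwards [hev] with n hn
  obtain ⟨r, M, d, hr, hM, hd, hMd, hKd, hn0, hnn, hval⟩ := hn
  obtain ⟨D0, hD0⟩ := exists_embeds n
  refine le_csInf ⟨D0, hD0⟩ fun D hD => ?_
  have h1 := lower_of_embeds hr (by omega) hd hMd hKd hn0 hnn hD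
  have h2 : c * Real.log n ^ 2 / Real.log (Real.log n) ≤ 500000 * D := hval.trans h1
  rw [div_mul_eq_mul_div, div_div, mul_comm (500000 : ℝ), ← div_div, div_le_iff₀ (by norm_num)]
  linarith

end Vale.Agent.P238
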